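import Vale.Agent.P272.F.Defs

/-! P272 F/S/Par: integrals with a parameter over a bounded set.

Plan. `spar_fderiv`: `hasFDerivAt_integral_of_dominated_of_fderiv_le` on the ball `ball p 1`, with a
constant bound of the continuous map `fderiv ℝ G` on the compact set
`closedBall p 1 ×ˢ closure S`; the measure `μ.restrict S` is finite. `spar_smooth`: `contDiff_infty`,
induction on `k` generalizing `F` (`contDiff_succ_iff_fderiv`; for `k = 0` continuity comes from
`spar_fderiv`). `spar_levi`: `spar_fderiv` twice, `ContinuousLinearMap.integral_apply`.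
Auxiliary names start with `spar_`. -/

open Metric Set Filter Topology Complex MeasureTheory
open scoped ContDiff

noncomputable section

namespace Vale.Agent.P272

variable {n : ℕ} {P F W : Type} [NormedAddCommGroup P] [NormedSpace ℝ P] [FiniteDimensional ℝ P]
  [NormedAddCommGroup F] [NormedSpace ℝ F] [CompleteSpace F]
  [NormedAddCommGroup W] [NormedSpace ℝ W] [FiniteDimensional ℝ W] [MeasurableSpace W]
  [BorelSpace W] {μ : Measure W} [IsFiniteMeasureOnCompacts μ] {S : Set W}

/-- The integral of `φ (z + s a)` over the unit ball. -/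
def bm (φ : E n → ℝ) (z : E n) (s : ℝ) : ℝ := ∫ a in ball (0 : E n) 1, φ (z + s • a)

theorem spar_int {g : W → F} (hg : Continuous g) (hS : Bornology.IsBounded S) :
    IntegrableOn g S μ :=
  (hg.continuousOn.integrableOn_compact hS.isCompact_closure).mono_set subset_closure

theorem spar_d {G : P × W → F} (hG : ContDiff ℝ ∞ G) :
    ContDiff ℝ ∞ fun q : P × W => (fderiv ℝ G q).comp (ContinuousLinearMap.inl ℝ P W) :=
  (hG.fderiv_right (m := ∞) le_rfl).clm_comp contDiff_const

theorem spar_has {G : P × W → F} (hG : ContDiff ℝ ∞ G) (p : P) (w : W) :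
    HasFDerivAt (fun p => G (p, w))
      ((fderiv ℝ G (p, w)).comp (ContinuousLinearMap.inl ℝ P W)) p :=
  (hG.differentiable (by simp) (p, w)).hasFDerivAt.comp p (hasFDerivAt_prodMk_left p w)

theorem spar_c {G : P × W → F} (hG : ContDiff ℝ ∞ G) (p : P) :
    Continuous fun w : W => (fderiv ℝ G (p, w)).comp (ContinuousLinearMap.inl ℝ P W) :=
  (spar_d hG).continuous.comp (.prodMk_right p)

theorem spar_fderiv {G : P × W → F} (hG : ContDiff ℝ ∞ G) (hS : Bornology.IsBounded S)
    (hm : MeasurableSet S) (p : P) :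
    HasFDerivAt (fun p => ∫ w in S, G (p, w) ∂μ)
      (∫ w in S, (fderiv ℝ G (p, w)).comp (ContinuousLinearMap.inl ℝ P W) ∂μ) p := by
  have hc := (spar_d hG).continuous
  obtain ⟨C, hC⟩ := ((isCompact_closedBall p 1).prod hS.isCompact_closure).exists_bound_of_continuousOn
    hc.continuousOn
  exact hasFDerivAt_integral_of_dominated_of_fderiv_le
    (F' := fun p w => (fderiv ℝ G (p, w)).comp (ContinuousLinearMap.inl ℝ P W))
    (bound := fun _ => C) (closedBall_mem_nhds p one_pos)
    (Eventually.of_forall fun x => (spar_int (hG.continuous.comp (.prodMk_right x)) hS).1)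
    (spar_int (hG.continuous.comp (.prodMk_right p)) hS)
    (spar_int (hc.comp (.prodMk_right p)) hS).1
    (ae_restrict_of_forall_mem hm fun w hw x hx => hC (x, w) ⟨hx, subset_closure hw⟩)
    (spar_int continuous_const hS) (Eventually.of_forall fun w x _ => spar_has hG x w)

theorem spar_nat (hS : Bornology.IsBounded S) (hm : MeasurableSet S) (k : ℕ) :
    ∀ (F : Type) [NormedAddCommGroup F] [NormedSpace ℝ F] [CompleteSpace F] (G : P × W → F),
      ContDiff ℝ ∞ G → ContDiff ℝ k fun p => ∫ w in S, G (p, w) ∂μ := by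
  induction k with
  | zero =>
    exact fun F _ _ _ G hG => contDiff_zero.2
      (continuous_iff_continuousAt.2 fun p => (spar_fderiv hG hS hm p).continuousAt)
  | succ k ih =>
    intro F _ _ _ G hG
    rw [Nat.cast_succ, contDiff_succ_iff_fderiv]
    refine ⟨fun p => (spar_fderiv hG hS hm p).differentiableAt, fun h => absurd h (by simp), ?_⟩
    rw [funext fun p => (spar_fderiv (μ := μ) hG hS hm p).fderiv]
    exact ih _ _ (spar_d hG)

theorem spar_smooth {G : P × W → F} (hG : ContDiff ℝ ∞ G) (hS : Bornology.IsBounded S)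
    (hm : MeasurableSet S) : ContDiff ℝ ∞ fun p => ∫ w in S, G (p, w) ∂μ :=
  contDiff_infty.2 fun k => spar_nat hS hm k F G hG

theorem spar_deriv {G G' : ℝ × W → F} (hG : ContDiff ℝ ∞ G) (hS : Bornology.IsBounded S)
    (hm : MeasurableSet S) (h : ∀ t w, HasDerivAt (fun t => G (t, w)) (G' (t, w)) t) (t : ℝ) :
    HasDerivAt (fun t => ∫ w in S, G (t, w) ∂μ) (∫ w in S, G' (t, w) ∂μ) t := by
  have h1 := (spar_fderiv (μ := μ) hG hS hm t).hasDerivAt
  rw [ContinuousLinearMap.integral_apply (spar_int (spar_c hG t) hS)] at h1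
  refine h1.congr_deriv (integral_congr_ae (Eventually.of_forall fun w => ?_))
  exact (spar_has hG t w).hasDerivAt.unique (h t w)

theorem spar_two {G : P × W → ℝ} (hG : ContDiff ℝ ∞ G) (hS : Bornology.IsBounded S)
    (hm : MeasurableSet S) (z a : P) :
    IntegrableOn (fun w => fderiv ℝ (fderiv ℝ fun z => G (z, w)) z a a) S μ ∧
      fderiv ℝ (fderiv ℝ fun z => ∫ w in S, G (z, w) ∂μ) z a a =
        ∫ w in S, fderiv ℝ (fderiv ℝ fun z => G (z, w)) z a a ∂μ := by
  have h1 := spar_d hG
  have h2 := spar_c h1 z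
  have h3 := h2.clm_apply (continuous_const (y := a))
  have e : (fun w => fderiv ℝ (fderiv ℝ fun z => G (z, w)) z a a) = fun w =>
      ((fderiv ℝ (fun q : P × W => (fderiv ℝ G q).comp (ContinuousLinearMap.inl ℝ P W))
        (z, w)).comp (ContinuousLinearMap.inl ℝ P W)) a a := funext fun w => by
    rw [funext fun p => (spar_has hG p w).fderiv, (spar_has h1 z w).fderiv]
  rw [e]
  refine ⟨spar_int (h3.clm_apply continuous_const) hS, ?_⟩
  rw [funext fun p => (spar_fderiv (μ := μ) hG hS hm p).fderiv,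
    (spar_fderiv (μ := μ) h1 hS hm z).fderiv, ContinuousLinearMap.integral_apply (spar_int h2 hS),
    ContinuousLinearMap.integral_apply (spar_int h3 hS)]

theorem spar_levi {G : E n × W → ℝ} (hG : ContDiff ℝ ∞ G) (hS : Bornology.IsBounded S)
    (hm : MeasurableSet S) (z a : E n) :
    levi (fun z => ∫ w in S, G (z, w) ∂μ) z a = ∫ w in S, levi (fun z => G (z, w)) z a ∂μ := by
  obtain ⟨h1, h2⟩ := spar_two (μ := μ) hG hS hm z a
  obtain ⟨h3, h4⟩ := spar_two (μ := μ) hG hS hm z (I • a)
  simp only [levi]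
  rw [integral_div, integral_add h1 h3, h2, h4]

theorem spar_shift (φ : E n → ℝ) (c z a : E n) :
    levi (fun z => φ (z + c)) z a = levi φ (z + c) a := by
  have e : (fderiv ℝ fun z => φ (z + c)) = fun z => fderiv ℝ φ (z + c) :=
    funext fun z => fderiv_comp_add_right c
  rw [levi, levi, e, fderiv_comp_add_right]

theorem spar_cd {φ : E n → ℝ} (hφ : ContDiff ℝ ∞ φ) :
    ContDiff ℝ ∞ fun p : E n × E n => levi φ p.1 p.2 := by
  have h1 : ContDiff ℝ ∞ fun p : E n × E n => fderiv ℝ (fderiv ℝ φ) p.1 :=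
    ((hφ.fderiv_right (m := ∞) le_rfl).fderiv_right (m := ∞) le_rfl).comp contDiff_fst
  have h2 : ContDiff ℝ ∞ fun p : E n × E n => I • p.2 := contDiff_snd.const_smul I
  exact (((h1.clm_apply contDiff_snd).clm_apply contDiff_snd).add
    ((h1.clm_apply h2).clm_apply h2)).div_const 4

end Vale.Agent.P272
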