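import Vale.Agent.P272.F.S.Glue
import Vale.Agent.P272.F.P.Ext
import Vale.Agent.P272.F.P.Lv
import Vale.Agent.P272.F.P.LComp

/-! P272 F/S/Piece: one piece of the global barrier (import what you need from `F/Kit/*`:
`exists_cut`, `levi_comp`, smooth transitions, bounds for `levi ρ`).

Plan. `χ` from `exists_cut A k` with radii `1 < 5/4`; `v x = χ x ^ 2 * exp (b (A.e k x))`. Near a point
`x` with `¬ A.In k (5/4) x` the function `v` vanishes, so it is smooth there and its Levi form is zero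
in every chart (`0 ≤ levi ρ`). Near a point of `(A.e k).source`: `A.loc v j = A.loc v k ∘ T` near
`A.e j x`, with `T = A.e k ∘ (A.e j).symm` holomorphic, so `levi_comp` and `ρ.cmp k j` reduce to the
chart `k`, where `A.loc v k = (A.loc χ k) ^ 2 * exp b` near the point; use `sglue_levi`,
`exp (-K) ≤ exp (b y) ≤ exp K` and `c ‖a‖ ^ 2 ≤ levi (ρ.u k) y a` for `‖y‖ ≤ 4`.
Auxiliary names start with `spiece_`. -/

open Metric Set Filter Topology Complex MeasureTheory
open scoped ContDiff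

noncomputable section

namespace Vale.Agent.P272

variable {n : ℕ} {X : Type} [TopologicalSpace X] [T2Space X] [CompactSpace X] {A : Atl n X}

theorem spiece_smul (u : E n → ℝ) (y a : E n) (t : ℝ) : levi u y (t • a) = t ^ 2 * levi u y a := by
  simp only [levi, smul_comm I t a, map_smul, smul_apply, smul_eq_mul]
  ring

theorem spiece_zero {u : E n → ℝ} {y : E n} (h : u =ᶠ[𝓝 y] fun _ => 0) (a : E n) :
    levi u y a = 0 := by
  rw [pv_levi_congr h]
  simp [levi]

theorem spiece_lo {u : E n → ℝ} (hu : ∀ y, ‖y‖ ≤ 4 → ContDiffAt ℝ ∞ u y)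
    (h : ∀ y, ‖y‖ ≤ 4 → ∀ a, a ≠ 0 → 0 < levi u y a) :
    ∃ c : ℝ, 0 < c ∧ ∀ y a, ‖y‖ ≤ 4 → c * ‖a‖ ^ 2 ≤ levi u y a := by
  have h1 : ContinuousOn (fun p : E n × E n => levi u p.1 p.2) (closedBall 0 4 ×ˢ sphere 0 1) :=
    fun p hp => by
      have h2 : ContinuousAt (fun p : E n × E n => fderiv ℝ (fderiv ℝ u) p.1) p :=
        (((hu p.1 (mem_closedBall_zero_iff.1 hp.1)).fderiv_right (m := 1)
          (WithTop.coe_le_coe.2 (le_top (a := (2 : ℕ∞))))).fderiv_right (m := 0) le_rfl).continuousAt.comp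
          continuousAt_fst
      have h3 : ContinuousAt (fun p : E n × E n => I • p.2) p := continuousAt_snd.const_smul I
      exact ((((h2.clm_apply continuousAt_snd).clm_apply continuousAt_snd).add
        ((h2.clm_apply h3).clm_apply h3)).div_const 4).continuousWithinAt
  obtain ⟨c, hc, h2⟩ := ((isCompact_closedBall (0 : E n) 4).prod
    (isCompact_sphere (0 : E n) 1)).exists_forall_le' h1 (a := 0) fun p hp =>
      h _ (mem_closedBall_zero_iff.1 hp.1) _ (ne_of_mem_sphere hp.2 one_ne_zero)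
  refine ⟨c, hc, fun y a hy => ?_⟩
  rcases eq_or_ne a 0 with rfl | ha
  · simp [levi]
  have h3 := h2 (y, ‖a‖⁻¹ • a) ⟨mem_closedBall_zero_iff.2 hy,
    mem_sphere_zero_iff_norm.2 (norm_smul_inv_norm ha)⟩
  have h4 : 0 < ‖a‖ ^ 2 := by positivity
  rwa [spiece_smul, inv_pow, le_inv_mul_iff₀' h4] at h3

theorem spiece (ρ : A.Pot) (hρ : ρ.Pos) (k : Fin A.N) (K : ℝ) : ∃ C : ℝ, 0 ≤ C ∧
    ∀ b : E n → ℝ, ContDiff ℝ ∞ b → (∀ y, ‖y‖ ≤ 5 / 4 → |b y| ≤ K ∧ ∀ a, 0 ≤ levi b y a) →
    ∃ v : X → ℝ, A.Sm v ∧ (∀ x, |v x| ≤ C) ∧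
      (∀ j x a, x ∈ (A.e j).source →
        -C * levi (ρ.u j) (A.e j x) a ≤ levi (A.loc v j) (A.e j x) a) ∧
      ∀ x a, x ∈ (A.e k).source → ‖A.e k x‖ ≤ 1 → Real.exp (-K) * levi b (A.e k x) a -
        C * levi (ρ.u k) (A.e k x) a ≤ levi (A.loc v k) (A.e k x) a := by
  let φ : ContDiffBump (0 : E n) := ⟨1, 5 / 4, one_pos, by norm_num⟩
  obtain ⟨C₀, hC₀, hg⟩ := sglue_levi (χ := φ) fun y _ => φ.contDiffAt
  have ht : ∀ {y : E n}, ‖y‖ ≤ 4 → y ∈ (A.e k).target := fun h =>
    A.tgt k (mem_closedBall_zero_iff.2 h)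
  obtain ⟨c, hc, hl⟩ := spiece_lo (u := ρ.u k)
    (fun y hy => (ρ.sm k).contDiffAt ((A.e k).open_target.mem_nhds (ht hy)))
    fun y hy => hρ k y (ht hy)
  have hn : ∀ j x a, x ∈ (A.e j).source → 0 ≤ levi (ρ.u j) (A.e j x) a := fun j x a hx => by
    rcases eq_or_ne a 0 with rfl | ha
    · simp [levi]
    · exact (hρ j _ ((A.e j).map_source hx) a ha).le
  have hφ : ∀ y : E n, 5 / 4 ≤ ‖y‖ → φ y = 0 := fun y hy =>
    φ.zero_of_le_dist (by rwa [dist_zero_right])
  have hK := Real.exp_pos K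
  have hD : 0 ≤ Real.exp K * C₀ / c := by positivity
  refine ⟨Real.exp K + Real.exp K * C₀ / c, by positivity, fun b hb hK' => ?_⟩
  obtain ⟨g, hg'⟩ : ∃ g : E n → ℝ, g = fun y => φ y ^ 2 * Real.exp (b y) := ⟨_, rfl⟩
  have g1 : ContDiff ℝ ∞ g := hg' ▸ (φ.contDiff.pow 2).mul hb.exp
  have g0 : ∀ y : E n, 5 / 4 ≤ ‖y‖ → g y = 0 := fun y hy => by simp [hg', hφ y hy]
  have g2 : ∀ y a : E n, ‖y‖ ≤ 5 / 4 → Real.exp (-K) * (φ y ^ 2 * levi b y a) -
      (Real.exp K + Real.exp K * C₀ / c) * levi (ρ.u k) y a ≤ levi g y a := fun y a hy => by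
    obtain ⟨h1, h2⟩ := hK' y hy
    have h3 := hg b y a (by linarith) hb.contDiffAt
    have h4 := hl y a (by linarith)
    have h5 := mul_le_mul_of_nonneg_right (Real.exp_le_exp.2 (abs_le.1 h1).1)
      (mul_nonneg (sq_nonneg (φ y)) (h2 a))
    have h6 := mul_le_mul_of_nonneg_right (Real.exp_le_exp.2 (abs_le.1 h1).2)
      (by positivity : 0 ≤ C₀ * ‖a‖ ^ 2)
    have h7 := mul_le_mul_of_nonneg_left h4 hD
    have h8 := mul_nonneg hK.le ((by positivity : 0 ≤ c * ‖a‖ ^ 2).trans h4)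
    rw [← mul_assoc, div_mul_cancel₀ _ hc.ne'] at h7
    rw [← hg'] at h3
    linarith
  have hs : closedBall (0 : E n) (5 / 4) ⊆ (A.e k).target := fun y hy =>
    ht (by linarith [mem_closedBall_zero_iff.1 hy])
  have e1 : ∀ j x a, x ∈ (A.e j).source → x ∈ (A.e k).source →
      levi (A.loc (A.ext k g) j) (A.e j x) a = levi g (A.e k x) (A.tr k j x a) :=
    fun j x a hj hk => by
      have h1 := pv_levi_comp (u := g) (Atl.tr_analytic hk hj)
        (g1.contDiffAt.of_le (WithTop.coe_le_coe.2 (le_top (a := (2 : ℕ∞))))) a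
      rw [Function.comp_apply, (A.e j).left_inv hj] at h1
      refine (pv_levi_congr ?_ a).trans h1
      filter_upwards [((A.e j).tendsto_symm hj).eventually ((A.e k).open_source.mem_nhds hk)]
        with y hy
      exact ext_of_mem g hy
  refine ⟨A.ext k g, sm_ext (isCompact_closedBall 0 _) hs g1.contDiffOn fun y _ hy =>
    g0 y (not_le.1 (mt mem_closedBall_zero_iff.2 hy)).le, fun x => ?_, fun j x a hj => ?_,
    fun x a hk hx => ?_⟩
  · by_cases hk : x ∈ (A.e k).source
    swap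
    · rw [ext_of_notMem g hk, abs_zero]
      positivity
    rw [ext_of_mem g hk]
    rcases le_total (5 / 4) ‖A.e k x‖ with h | h
    · rw [g0 _ h, abs_zero]
      positivity
    · have h1 := Real.exp_le_exp.2 (abs_le.1 (hK' _ h).1).2
      have h2 := mul_le_of_le_one_left (Real.exp_pos (b (A.e k x))).le
        (pow_le_one₀ (n := 2) (φ.nonneg' (A.e k x)) φ.le_one)
      rw [hg', abs_of_nonneg (by positivity)]
      linarith
  · have h0 := mul_nonneg (add_nonneg hK.le hD) (hn j x a hj)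
    by_cases hk : x ∈ (A.e k).source
    · rw [e1 j x a hj hk]
      rcases le_or_gt ‖A.e k x‖ (5 / 4) with h | h
      · have h1 := g2 _ (A.tr k j x a) h
        have h2 := mul_nonneg (Real.exp_pos (-K)).le
          (mul_nonneg (sq_nonneg (φ (A.e k x))) ((hK' _ h).2 (A.tr k j x a)))
        rw [ρ.cmp k j x hk hj]
        linarith
      · rw [spiece_zero (u := g) ((continuous_norm.continuousAt.eventually
          (lt_mem_nhds h)).mono fun y hy => g0 y hy.le)]
        linarith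
    · have h1 : IsClosed ((A.e k).symm '' closedBall 0 (5 / 4)) :=
        ((isCompact_closedBall _ _).image_of_continuousOn
          ((A.e k).continuousOn_symm.mono hs)).isClosed
      have h2 : x ∈ ((A.e k).symm '' closedBall 0 (5 / 4))ᶜ := by
        rintro ⟨y, hy, rfl⟩
        exact hk ((A.e k).map_target (hs hy))
      rw [spiece_zero (u := A.loc (A.ext k g) j) ?_]
      · linarith
      filter_upwards [((A.e j).tendsto_symm hj).eventually (h1.isOpen_compl.mem_nhds h2)]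
        with y hy
      by_cases h3 : (A.e j).symm y ∈ (A.e k).source
      · refine (ext_of_mem g h3).trans (g0 _ (not_lt.1 fun h4 => hy ?_))
        exact ⟨_, mem_closedBall_zero_iff.2 h4.le, (A.e k).left_inv h3⟩
      · exact ext_of_notMem g h3
  · have h1 := g2 _ a (hx.trans (by norm_num))
    rw [φ.one_of_mem_closedBall (mem_closedBall_zero_iff.2 hx), one_pow, one_mul] at h1
    refine h1.trans_eq (pv_levi_congr ?_ a)
    filter_upwards [(A.e k).open_target.mem_nhds ((A.e k).map_source hk)] with y hy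
    exact ((ext_of_mem g ((A.e k).map_target hy)).trans (congrArg g ((A.e k).right_inv hy))).symm

end Vale.Agent.P272
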