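import Vale.Agent.P272.F.S.Ext
import Vale.Agent.P272.F.S.Piece
import Vale.Agent.P272.F.P.Lv
import Vale.Agent.P272.F.P.LComp
import Vale.Agent.P272.BasA1

/-! P272 F/S/Main: the bounded barrier. -/

open Metric Set Filter Topology Complex MeasureTheory
open scoped ContDiff

noncomputable section

namespace Vale.Agent.P272

variable {n : ℕ} {X : Type} [TopologicalSpace X] {A : Atl n X}

theorem smain_two {u : E n → ℝ} {y : E n} (h : ContDiffAt ℝ ∞ u y) : ContDiffAt ℝ 2 u y :=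
  h.of_le (WithTop.coe_le_coe.2 (le_top (a := (2 : ℕ∞))))

theorem smain_mul {u : E n → ℝ} {y : E n} (h : ContDiffAt ℝ ∞ u y) (c : ℝ) (a : E n) :
    levi (fun z => c * u z) y a = c * levi u y a := by
  have h1 : fderiv ℝ (fun z => c * u z) =ᶠ[𝓝 y] fun z => c • fderiv ℝ u z := by
    filter_upwards [(smain_two h).eventually (by simp)] with z hz
    exact fderiv_const_mul (hz.differentiableAt (by simp)) c
  have h2 : DifferentiableAt ℝ (fderiv ℝ u) y :=
    ((smain_two h).fderiv_right (m := 1) (by norm_num)).differentiableAt (by simp)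
  have h3 : fderiv ℝ (fderiv ℝ fun z => c * u z) y = c • fderiv ℝ (fderiv ℝ u) y := by
    rw [h1.fderiv_eq]
    exact fderiv_fun_const_smul h2 c
  simp only [levi, h3, smul_apply, smul_eq_mul]
  ring

theorem smain_sum {ι : Type} (s : Finset ι) {u : ι → E n → ℝ} {y : E n}
    (h : ∀ i, ContDiffAt ℝ ∞ (u i) y) (a : E n) :
    levi (fun z => ∑ i ∈ s, u i z) y a = ∑ i ∈ s, levi (u i) y a := by
  classical
  induction s using Finset.induction_on with
  | empty => simp [levi]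
  | insert i s hi ih =>
    simp only [Finset.sum_insert hi]
    rw [pv_levi_add (smain_two (h i)) (smain_two (ContDiffAt.sum fun i _ => h i)), ih]

theorem smain_chg {φ : X → ℝ} (h : A.Sm φ) {j k : Fin A.N} {x : X} (hj : x ∈ (A.e j).source)
    (hk : x ∈ (A.e k).source) (a : E n) :
    levi (A.loc φ j) (A.e j x) a = levi (A.loc φ k) (A.e k x) (A.tr k j x a) := by
  have e : (A.e k ∘ (A.e j).symm) (A.e j x) = A.e k x := by
    simp only [Function.comp, (A.e j).left_inv hj]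
  have h1 : A.loc φ j =ᶠ[𝓝 (A.e j x)] A.loc φ k ∘ (A.e k ∘ (A.e j).symm) := by
    have h2 : ∀ᶠ y in 𝓝 (A.e j x), (A.e j).symm y ∈ (A.e k).source := by
      refine ((A.e j).continuousAt_symm ((A.e j).map_source hj)).eventually_mem ?_
      rw [(A.e j).left_inv hj]
      exact (A.e k).open_source.mem_nhds hk
    filter_upwards [h2] with y hy
    simp only [Atl.loc, Function.comp, (A.e k).left_inv hy]
  rw [pv_levi_congr h1, pv_levi_comp (Atl.tr_analytic hk hj) (by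
    rw [e]; exact smain_two (pv_at h hk)), e]
  rfl

theorem smain_lo (ρ : A.Pot) (hρ : ρ.Pos) : ∃ c : ℝ, 0 < c ∧ ∀ j y a, ‖y‖ ≤ 1 →
    c * ‖a‖ ^ 2 ≤ levi (ρ.u j) y a := by
  have H : ∀ j, ∃ c : ℝ, 0 < c ∧ ∀ y a, ‖y‖ ≤ 1 → c * ‖a‖ ^ 2 ≤ levi (ρ.u j) y a := fun j => by
    have ht : ∀ y : E n, ‖y‖ ≤ 1 → y ∈ (A.e j).target := fun y hy =>
      A.tgt j (mem_closedBall_zero_iff.2 (by linarith))
    have hc : ∀ y : E n, ‖y‖ ≤ 1 → ContDiffAt ℝ ∞ (ρ.u j) y := fun y hy =>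
      (ρ.sm j).contDiffAt ((A.e j).open_target.mem_nhds (ht y hy))
    have hK : IsCompact (closedBall (0 : E n) 1 ×ˢ sphere (0 : E n) 1) :=
      (isCompact_closedBall _ _).prod (isCompact_sphere _ _)
    have hf : ContinuousOn (fun p : E n × E n => levi (ρ.u j) p.1 p.2)
        (closedBall (0 : E n) 1 ×ˢ sphere (0 : E n) 1) := fun p hp => by
      have h1 : ContinuousAt (fderiv ℝ (fderiv ℝ (ρ.u j))) p.1 :=
        (((smain_two (hc _ (mem_closedBall_zero_iff.1 hp.1))).fderiv_right (m := 1)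
          (by norm_num)).fderiv_right (m := 0) (by norm_num)).continuousAt
      have h2 : ContinuousAt (fun q : E n × E n => fderiv ℝ (fderiv ℝ (ρ.u j)) q.1) p :=
        h1.comp continuousAt_fst
      refine ContinuousAt.continuousWithinAt ?_
      unfold levi
      have h3 : ContinuousAt (fun q : E n × E n => I • q.2) p := by fun_prop
      exact (((h2.clm_apply continuousAt_snd).clm_apply continuousAt_snd).add
        ((h2.clm_apply h3).clm_apply h3)).div_const 4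
    obtain ⟨c, hc0, hcl⟩ := hK.exists_forall_le' hf (a := 0) fun p hp =>
      hρ j _ (ht _ (mem_closedBall_zero_iff.1 hp.1)) _ fun h0 => by
        have := mem_sphere_zero_iff_norm.1 hp.2
        rw [h0, norm_zero] at this
        exact zero_ne_one this
    refine ⟨c, hc0, fun y a hy => ?_⟩
    obtain ⟨Γ, -, hΓ⟩ := slin_op (smain_two (hc y hy))
    rcases eq_or_ne a 0 with rfl | ha
    · simp [levi]
    have hn : 0 < ‖a‖ := norm_pos_iff.2 ha
    have h1 := hcl (y, ((‖a‖⁻¹ : ℝ) : ℂ) • a) ⟨mem_closedBall_zero_iff.2 hy, by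
      rw [mem_sphere_zero_iff_norm, norm_smul, Complex.norm_real, norm_inv, norm_norm,
        inv_mul_cancel₀ hn.ne']⟩
    simp only [hΓ, qf_smul, Complex.norm_real, norm_inv, norm_norm] at h1 ⊢
    rw [inv_pow, inv_mul_eq_div, le_div_iff₀ (by positivity)] at h1
    exact h1
  choose c hc h using H
  obtain ⟨m, hm, hle⟩ : ∃ m : ℝ, 0 < m ∧ ∀ j, m ≤ c j := by
    have : ∀ᶠ m in 𝓝[>] (0 : ℝ), ∀ j, m ≤ c j :=
      eventually_all.2 fun j => nhdsWithin_le_nhds (ge_mem_nhds (hc j))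
    obtain ⟨m, h1, h2⟩ := (this.and self_mem_nhdsWithin).exists
    exact ⟨m, h2, h1⟩
  exact ⟨m, hm, fun j y a hy =>
    (mul_le_mul_of_nonneg_right (hle j) (sq_nonneg _)).trans (h j y a hy)⟩

theorem smain_bd (v : A.LV) : ∃ M : ℝ, ∀ j y, ‖y‖ ≤ 1 → v.l j y ≤ M := by
  have H : ∀ j, ∃ M : ℝ, ∀ y, ‖y‖ ≤ 1 → v.l j y ≤ M := fun j => by
    obtain ⟨M, hM⟩ := (isCompact_closedBall (0 : E n) 4).exists_bound_of_continuousOn
      ((v.sm j).continuousOn.mono (A.tgt j))
    exact ⟨M, fun y hy => (le_abs_self _).trans (hM y (mem_closedBall_zero_iff.2 (by linarith)))⟩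
  choose M h using H
  exact ⟨∑ j, |M j|, fun j y hy => (h j y hy).trans ((le_abs_self _).trans
    (Finset.single_le_sum (f := fun j => |M j|) (fun _ _ => abs_nonneg _) (Finset.mem_univ j)))⟩

theorem smain_mono {l l' : ℝ} (h : l ≤ l') (V : L n) : maR l V ≤ maR l' V := by
  unfold maR
  gcongr

theorem smain_ma (l : ℝ) {T : L n} (hT : T.det ≠ 0) (V : L n) :
    maR (l + Real.log (‖T.det‖ ^ 2)) V = maR l (T * V) := by
  have : 0 < ‖T.det‖ ^ 2 := by positivity
  rw [maR, maR, Real.exp_add, Real.exp_log this, det_mul', norm_mul, mul_pow, mul_assoc]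

theorem barrier [T2Space X] [CompactSpace X] (hn : 1 ≤ n) [ConnectedSpace X] (τ ρ : A.Pot)
    (hρ : ρ.Pos) (v : A.LV) :
    ∃ η B : ℝ, 0 < η ∧ ∀ ψ, A.Sm ψ → (∀ x, ψ x ≤ 0) → (∃ x, ψ x = 0) →
    (∀ j x a, x ∈ (A.e j).source → 0 ≤ levi (fun y => τ.u j y + A.loc ψ j y) (A.e j x) a) →
    ∃ b, A.Sm b ∧ (∀ x, |b x| ≤ B) ∧ ∀ j x V, x ∈ (A.e j).source →
      maR (-B - η * ψ x + v.l j (A.e j x)) V ≤
        trL (fun y => 2 * ρ.u j y + A.loc b j y) (A.e j x) V := by
  obtain ⟨η, K, hη, hK, hloc⟩ := sext τ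
  choose C hC hp using fun k => spiece ρ hρ k K
  obtain ⟨c, hc, hlo⟩ := smain_lo ρ hρ
  obtain ⟨M, hM⟩ := smain_bd v
  have hS : 0 ≤ ∑ k, C k := Finset.sum_nonneg fun k _ => hC k
  obtain ⟨δ, hδ⟩ : ∃ δ : ℝ, δ = (∑ k, C k + 1)⁻¹ := ⟨_, rfl⟩
  have hδ0 : 0 < δ := by rw [hδ]; positivity
  have hδ1 : δ * ∑ k, C k ≤ 1 := by
    rw [hδ, inv_mul_le_iff₀ (by positivity)]
    linarith
  have hc' : 0 < min c (δ * Real.exp (-K)) := lt_min hc (by positivity)
  obtain ⟨B, hB⟩ := slin_ma hn hc'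
  have hl : 0 ≤ Real.log K := Real.log_nonneg hK
  refine ⟨η, 1 + |B| + |M| + Real.log K, hη, fun ψ h1 h2 h3 h4 => ?_⟩
  choose b hb hb' using hloc ψ h1 h2 h3 h4
  choose w hw hw1 hw2 hw3 using fun k => hp k (b k) (hb k) fun y hy =>
    ⟨(hb' k y hy).1, (hb' k y hy).2.1⟩
  have hsm : A.Sm fun x => δ * ∑ k, w k x := fun j =>
    contDiffOn_const.mul (ContDiffOn.sum fun k _ => hw k j)
  refine ⟨_, hsm, fun x => ?_, fun j x V hj => ?_⟩
  · have : |∑ k, w k x| ≤ ∑ k, C k :=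
      (Finset.abs_sum_le_sum_abs _ _).trans (Finset.sum_le_sum fun k _ => hw1 k x)
    rw [abs_mul, abs_of_pos hδ0]
    nlinarith [abs_nonneg B, abs_nonneg M, mul_le_mul_of_nonneg_left this hδ0.le]
  obtain ⟨k, hk, hx⟩ := A.cov x
  have hT : (A.tr k j x).det ≠ 0 := det_ne ⟨⟨_, _, Atl.tr_mul hk hj, Atl.tr_mul hj hk⟩, rfl⟩
  obtain ⟨Γ, hΓ, hΓ'⟩ := slin_op (smain_two ((hb k).contDiffAt (x := A.e k x)))
  obtain ⟨-, h5, h6⟩ := hb' k (A.e k x) (by linarith)
  rw [pv_loc ψ hk] at h6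
  have h7 := hB Γ hΓ (fun a => hΓ' a ▸ h5 a) (A.tr k j x * V) (-η * ψ x - Real.log K) (by
    rw [Real.exp_sub, Real.exp_log (by linarith), div_le_iff₀ (by linarith), mul_comm _ K]
    simpa only [hΓ'] using h6)
  rw [v.cmp k j x hk hj, ← add_assoc, smain_ma _ hT]
  refine (smain_mono ?_ _).trans (h7.trans (Finset.sum_le_sum fun i _ => ?_))
  · linarith [hM k _ hx.le, le_abs_self M, le_abs_self B]
  rw [pv_levi_add (smain_two (contDiffAt_const.mul (pv_pot_at ρ hj))) (smain_two (pv_at hsm hj)),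
    smain_mul (pv_pot_at ρ hj), ρ.cmp k j x hk hj, smain_chg hsm hj hk]
  have e : A.loc (fun x => δ * ∑ i, w i x) k = fun y => δ * ∑ i, A.loc (w i) k y := rfl
  rw [e, smain_mul (ContDiffAt.sum fun i _ => pv_at (hw i) hk),
    smain_sum _ fun i => pv_at (hw i) hk, ← hΓ', ContinuousLinearMap.mul_apply]
  generalize A.tr k j x (V (eb i)) = a
  have h8 := hlo k _ a hx.le
  have h9 : Real.exp (-K) * levi (b k) (A.e k x) a - (∑ i, C i) * levi (ρ.u k) (A.e k x) a ≤
      ∑ i, levi (A.loc (w i) k) (A.e k x) a := by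
    rw [← Finset.add_sum_erase _ _ (Finset.mem_univ k), ← Finset.add_sum_erase _ _ (Finset.mem_univ k),
      add_mul, Finset.sum_mul]
    have := Finset.sum_le_sum (s := Finset.univ.erase k) fun i _ => hw2 i k x a hk
    simp only [neg_mul, Finset.sum_neg_distrib] at this
    linarith [hw3 k x a hk hx.le]
  have h10 : 0 ≤ levi (ρ.u k) (A.e k x) a := le_trans (by positivity) h8
  have h11 := mul_le_mul_of_nonneg_left h9 hδ0.le
  have h12 := mul_le_mul_of_nonneg_right (min_le_left c (δ * Real.exp (-K))) (sq_nonneg ‖a‖)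
  have h13 := mul_le_mul_of_nonneg_right (min_le_right c (δ * Real.exp (-K))) (h5 a)
  have h14 := mul_le_mul_of_nonneg_right hδ1 h10
  nlinarith

end Vale.Agent.P272
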