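import Vale.Agent.P272.F.Defs
import Vale.Agent.P272.Lin

/-! P272 F/S/Lin: linear algebra of the Levi form (use `P272/Lin.lean`: `qf_cs`, `qf_sa`, `det_le`,
`det_mul'`, `lin_det`).

Plan. `slin_op`: `B = D²φ y` is symmetric (`ContDiffAt.isSymmSndFDerivAt`),
`R a v = (B a v + B (I a) (I v)) / 4`, `h a v = R a v - I * R a (I v)` is complex linear in `v`, and
`h a v = conj (h v a)`; take the operator with matrix `h (eb i) (eb j)`. `slin_tr`: expand `a` in the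
basis, `qf_cs`, Cauchy-Schwarz. `slin_ma`: pick `i` with `q = qf Γ (eb i) ≥ trace / n`; if `q > 0` let
`l v = ⟪Γ (eb i), v⟫ / √q`, else `l = 0`; `‖l v‖ ^ 2 ≤ qf Γ v`, `l (eb i) = √q`. Put
`S v = v + l v • eb i`: `‖S v‖ ^ 2 ≤ 2 (‖v‖ ^ 2 + qf Γ v)`, `det S = 1 + √q` (identity with one row
changed: `Matrix.det_one_add_replicateCol_mul_replicateRow` or `det_updateRow`), so
`‖det S‖ ^ 2 ≥ 1 + q ≥ exp l / n`. Apply `det_le` to `S * V` and take the `n`-th root.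
Auxiliary names start with `slin_`. -/

open Metric Set Filter Topology Complex MeasureTheory
open scoped ContDiff

noncomputable section

namespace Vale.Agent.P272

variable {n : ℕ}

theorem slin_sum (a : E n) : ∑ i, a i • eb i = a := by
  have := (EuclideanSpace.basisFun (Fin n) ℂ).sum_repr a
  simpa [eb] using this

theorem slin_eb (i : Fin n) (v : E n) : inner ℂ (eb i) v = v i := by
  rw [eb, EuclideanSpace.inner_single_left, map_one, one_mul]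

/-- The sesquilinear form attached to a real bilinear form. -/
def slin_H (B : E n →L[ℝ] E n →L[ℝ] ℝ) (a : E n) : E n →ₗ[ℂ] ℂ where
  toFun v := (((B a v + B (I • a) (I • v)) / 4 : ℝ) : ℂ) -
    I * (((B a (I • v) - B (I • a) v) / 4 : ℝ) : ℂ)
  map_add' v w := by
    simp only [smul_add, map_add]
    push_cast
    ring
  map_smul' c v := by
    have e1 : c • v = c.re • v + c.im • (I • v) := by
      rw [← Complex.coe_smul, ← Complex.coe_smul, smul_smul, ← add_smul, Complex.re_add_im]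
    have e2 : I • c • v = c.re • (I • v) - c.im • v := by
      rw [← Complex.coe_smul, ← Complex.coe_smul, smul_smul, smul_smul, ← sub_smul]
      congr 1
      apply Complex.ext <;> simp
    rw [e2, e1]
    simp only [map_add, map_sub, map_smul, smul_eq_mul, RingHom.id_apply]
    apply Complex.ext <;> simp <;> ring

theorem slin_H_apply (B : E n →L[ℝ] E n →L[ℝ] ℝ) (a v : E n) : slin_H B a v =
    (((B a v + B (I • a) (I • v)) / 4 : ℝ) : ℂ) -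
      I * (((B a (I • v) - B (I • a) v) / 4 : ℝ) : ℂ) := rfl

theorem slin_conj (B : E n →L[ℝ] E n →L[ℝ] ℝ) (hs : ∀ a v, B a v = B v a) (a v : E n) :
    (starRingEnd ℂ) (slin_H B v a) = slin_H B a v := by
  rw [slin_H_apply, slin_H_apply, hs v a, hs (I • v) (I • a), hs v (I • a), hs (I • v) a,
    map_sub, map_mul, Complex.conj_ofReal, Complex.conj_ofReal, Complex.conj_I]
  push_cast
  ring

theorem slin_ex (B : E n →L[ℝ] E n →L[ℝ] ℝ) (hs : ∀ a v, B a v = B v a) :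
    ∃ Γ : L n, IsSelfAdjoint Γ ∧ ∀ a, (B a a + B (I • a) (I • a)) / 4 = qf Γ a := by
  obtain ⟨Γ, hΓ⟩ : ∃ Γ : L n, ∀ v, Γ v = ∑ i, slin_H B (eb i) v • eb i :=
    ⟨LinearMap.toContinuousLinearMap (∑ i, (slin_H B (eb i)).smulRight (eb i)), fun v => by
      simp⟩
  have key : ∀ a v, inner ℂ a (Γ v) = slin_H B a v := by
    intro a v
    have e : slin_H B v a = ∑ i, a i * slin_H B v (eb i) := by
      conv_lhs => rw [← slin_sum a]
      rw [map_sum]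
      simp only [map_smul, smul_eq_mul]
    rw [← slin_conj B hs, e, map_sum, hΓ, inner_sum]
    refine Finset.sum_congr rfl fun i _ => ?_
    rw [inner_smul_right, map_mul, slin_conj B hs, ← inner_conj_symm, slin_eb, mul_comm]
  refine ⟨Γ, ContinuousLinearMap.isSelfAdjoint_iff_isSymmetric.2 fun x y => ?_, fun a => ?_⟩
  · show inner ℂ (Γ x) y = inner ℂ x (Γ y)
    rw [← inner_conj_symm, key, key, slin_conj B hs]
  · rw [qf, key, slin_H_apply]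
    simp

theorem slin_det (l : E n →L[ℂ] ℂ) (i : Fin n) :
    (1 + l.smulRight (eb i) : L n).det = 1 + l (eb i) := by
  have e : (Matrix.of fun k j => (1 + l.smulRight (eb i) : L n) (eb j) k) =
      1 + Matrix.replicateCol Unit (fun k => eb i k) *
        Matrix.replicateRow Unit (fun j => l (eb j)) := by
    ext k j
    simp [eb, Matrix.mul_apply, Matrix.one_apply, mul_comm]
  rw [lin_det, e, Matrix.det_one_add_replicateCol_mul_replicateRow]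
  simp [eb, dotProduct]

theorem slin_S {Γ : L n} (h : IsSelfAdjoint Γ) (h0 : ∀ a, 0 ≤ qf Γ a) (i : Fin n) :
    ∃ S : L n, 1 + qf Γ (eb i) ≤ ‖S.det‖ ^ 2 ∧ ∀ v, ‖S v‖ ^ 2 ≤ 2 * (‖v‖ ^ 2 + qf Γ v) := by
  have q0 := h0 (eb i)
  have s0 := Real.sqrt_nonneg (qf Γ (eb i))
  have s2 := Real.sq_sqrt q0
  obtain ⟨l, hl⟩ : ∃ l : E n →L[ℂ] ℂ, ∀ v,
      l v = (((√(qf Γ (eb i)))⁻¹ : ℝ) : ℂ) * inner ℂ (eb i) (Γ v) :=
    ⟨(((√(qf Γ (eb i)))⁻¹ : ℝ) : ℂ) • (innerSL ℂ (eb i)).comp Γ, fun v => rfl⟩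
  refine ⟨1 + l.smulRight (eb i), ?_, fun v => ?_⟩
  · have e : (√(qf Γ (eb i)))⁻¹ * qf Γ (eb i) = √(qf Γ (eb i)) := by
      rw [inv_mul_eq_div, Real.div_sqrt]
    rw [slin_det, hl, qf_sa h, ← Complex.ofReal_mul, e, ← Complex.ofReal_one, ← Complex.ofReal_add,
      Complex.norm_real, Real.norm_eq_abs, sq_abs]
    nlinarith
  · have a1 : ‖l v‖ ^ 2 ≤ qf Γ v := by
      rw [hl, norm_mul, mul_pow, Complex.norm_real, Real.norm_eq_abs, sq_abs, inv_pow, s2]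
      calc (qf Γ (eb i))⁻¹ * ‖inner ℂ (eb i) (Γ v)‖ ^ 2
          ≤ (qf Γ (eb i))⁻¹ * (qf Γ (eb i) * qf Γ v) :=
            mul_le_mul_of_nonneg_left (qf_cs h h0 _ _) (inv_nonneg.2 q0)
        _ = ((qf Γ (eb i))⁻¹ * qf Γ (eb i)) * qf Γ v := by ring
        _ ≤ 1 * qf Γ v := mul_le_mul_of_nonneg_right (inv_mul_le_one_of_le₀ le_rfl q0) (h0 v)
        _ = qf Γ v := one_mul _
    have a2 : ‖(1 + l.smulRight (eb i) : L n) v‖ ≤ ‖v‖ + ‖l v‖ := by
      have e : (1 + l.smulRight (eb i) : L n) v = v + l v • eb i := rfl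
      rw [e]
      refine (norm_add_le _ _).trans ?_
      rw [norm_smul, lin_eb, mul_one]
    have a3 := pow_le_pow_left₀ (norm_nonneg _) a2 2
    nlinarith [sq_nonneg (‖v‖ - ‖l v‖)]

theorem slin_op {φ : E n → ℝ} {y : E n} (h : ContDiffAt ℝ 2 φ y) :
    ∃ Γ : L n, IsSelfAdjoint Γ ∧ ∀ a, levi φ y a = qf Γ a := by
  have hs := h.isSymmSndFDerivAt (by simp)
  exact slin_ex _ fun a v => hs.eq a v

theorem slin_tr {Γ : L n} (h : IsSelfAdjoint Γ) (h0 : ∀ a, 0 ≤ qf Γ a) (a : E n) :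
    qf Γ a ≤ ‖a‖ ^ 2 * ∑ i, qf Γ (eb i) := by
  have T0 : 0 ≤ ∑ i, qf Γ (eb i) := Finset.sum_nonneg fun i _ => h0 _
  have a1 : ‖Γ a‖ ^ 2 ≤ (∑ i, qf Γ (eb i)) * qf Γ a := by
    rw [EuclideanSpace.norm_sq_eq, Finset.sum_mul]
    refine Finset.sum_le_sum fun i _ => ?_
    rw [← slin_eb i (Γ a)]
    exact qf_cs h h0 _ _
  have a2 : qf Γ a ≤ ‖a‖ * ‖Γ a‖ := (Complex.re_le_norm _).trans (norm_inner_le_norm _ _)
  have a3 := pow_le_pow_left₀ (h0 a) a2 2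
  rcases (h0 a).eq_or_lt with e | e
  · rw [← e]
    exact mul_nonneg (sq_nonneg _) T0
  · refine le_of_mul_le_mul_right ?_ e
    calc qf Γ a * qf Γ a = qf Γ a ^ 2 := by ring
      _ ≤ (‖a‖ * ‖Γ a‖) ^ 2 := a3
      _ = ‖a‖ ^ 2 * ‖Γ a‖ ^ 2 := by ring
      _ ≤ ‖a‖ ^ 2 * ((∑ i, qf Γ (eb i)) * qf Γ a) := by gcongr
      _ = ‖a‖ ^ 2 * (∑ i, qf Γ (eb i)) * qf Γ a := by ring

theorem slin_ma (hn : 1 ≤ n) {c : ℝ} (hc : 0 < c) : ∃ B : ℝ, ∀ Γ : L n, IsSelfAdjoint Γ →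
    (∀ a, 0 ≤ qf Γ a) → ∀ (V : L n) (l : ℝ), Real.exp l ≤ 1 + ∑ i, qf Γ (eb i) →
    maR (l - B) V ≤ ∑ i, c * (‖V (eb i)‖ ^ 2 + qf Γ (V (eb i))) := by
  have n1 : (1 : ℝ) ≤ n := by exact_mod_cast hn
  have n0 : (0 : ℝ) < n := by linarith
  have f0 : (0 : ℝ) < n.factorial := by exact_mod_cast n.factorial_pos
  obtain ⟨K, hK⟩ : ∃ K : ℝ, K = n * (n.factorial : ℝ) ^ 2 * 2 ^ n := ⟨_, rfl⟩
  have K0 : 0 < K := by rw [hK]; positivity
  refine ⟨Real.log (K / (c / n) ^ n), fun Γ h h0 V l hl => ?_⟩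
  have : Nonempty (Fin n) := ⟨⟨0, hn⟩⟩
  obtain ⟨i, -, hi⟩ := Finset.exists_max_image Finset.univ (fun i => qf Γ (eb i))
    Finset.univ_nonempty
  obtain ⟨S, S1, S2⟩ := slin_S h h0 i
  have a1 : ∑ j, qf Γ (eb j) ≤ n * qf Γ (eb i) := by
    have := Finset.sum_le_card_nsmul Finset.univ (fun j => qf Γ (eb j)) _ hi
    simpa using this
  have a2 : Real.exp l ≤ n * ‖S.det‖ ^ 2 := by
    calc Real.exp l ≤ n * (1 + qf Γ (eb i)) := by linarith
      _ ≤ n * ‖S.det‖ ^ 2 := by gcongr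
  obtain ⟨T, hT⟩ : ∃ T : ℝ, T = ∑ j, (‖V (eb j)‖ ^ 2 + qf Γ (V (eb j))) := ⟨_, rfl⟩
  have T0 : 0 ≤ T := by
    rw [hT]
    exact Finset.sum_nonneg fun j _ => add_nonneg (sq_nonneg _) (h0 _)
  have a3 : ∑ j, ‖(S * V) (eb j)‖ ^ 2 ≤ 2 * T := by
    rw [hT, Finset.mul_sum]
    exact Finset.sum_le_sum fun j _ => S2 _
  have a4 : Real.exp l * ‖V.det‖ ^ 2 ≤ K * T ^ n := by
    have b0 : 0 ≤ ∑ j, ‖(S * V) (eb j)‖ ^ 2 := Finset.sum_nonneg fun j _ => sq_nonneg _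
    calc Real.exp l * ‖V.det‖ ^ 2 ≤ n * ‖S.det‖ ^ 2 * ‖V.det‖ ^ 2 := by gcongr
      _ = n * ‖(S * V).det‖ ^ 2 := by rw [det_mul', norm_mul]; ring
      _ ≤ n * ((n.factorial : ℝ) ^ 2 * (∑ j, ‖(S * V) (eb j)‖ ^ 2) ^ n) := by
        gcongr
        exact det_le _
      _ ≤ n * ((n.factorial : ℝ) ^ 2 * (2 * T) ^ n) := by gcongr
      _ = K * T ^ n := by rw [hK, mul_pow]; ring
  have a5 : Real.exp (l - Real.log (K / (c / n) ^ n)) * ‖V.det‖ ^ 2 ≤ (c / n * T) ^ n := by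
    rw [Real.exp_sub, Real.exp_log (by positivity)]
    calc Real.exp l / (K / (c / n) ^ n) * ‖V.det‖ ^ 2
        = (c / n) ^ n / K * (Real.exp l * ‖V.det‖ ^ 2) := by field_simp
      _ ≤ (c / n) ^ n / K * (K * T ^ n) := by gcongr
      _ = (c / n * T) ^ n := by rw [mul_pow]; field_simp
  rw [← Finset.mul_sum, ← hT, maR, one_div]
  calc n * (Real.exp (l - Real.log (K / (c / n) ^ n)) * ‖V.det‖ ^ 2) ^ ((n : ℝ)⁻¹)
      ≤ n * ((c / n * T) ^ n) ^ ((n : ℝ)⁻¹) := by gcongr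
    _ = n * (c / n * T) := by rw [Real.pow_rpow_inv_natCast (by positivity) (by omega)]
    _ = c * T := by field_simp

end Vale.Agent.P272
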