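import Vale.Agent.P272.F.Defs

/-! P272 F/S/Chain: a chain of charts.

Plan. Call `w` admissible if it satisfies the hypotheses except the existence of a zero,
`J j w = ∫ y in ball 0 (3/2), A.loc w j y` (`A.loc w j` is continuous on `closedBall 0 4`, so it is
integrable there), `U j = {x | x ∈ (A.e j).source ∧ ‖A.e j x‖ < 1}` (open, they cover `X`), and
`r j k := ∃ C ≥ 0, ∀ w admissible, J k w ≤ C * (1 + J j w)` (reflexive, transitive). If
`U j ∩ U k ≠ ∅` then `r j k`: the image `O` of `U j ∩ U k` in the chart `j` is open, non empty, inside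
`ball 0 1`, so it has positive finite volume and there is `y ∈ O` with
`A.loc w j y ≤ J j w / vol O` (`exists_le_setAverage` or by contradiction); apply the hypothesis in
the chart `k`. For fixed `j` with `U j ≠ ∅` the union of the `U k` with `r j k` is open, closed and
non empty, so it is everything. For a chart `k`: the point `(A.e k).symm 0` lies in `U k`. Finally
the zero of `w` lies in some `U j`, so `J j w ≤ K * M`; take the sum of the finitely many
constants. Auxiliary names start with `schain_`. -/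

open Metric Set Filter Topology Complex MeasureTheory
open scoped ContDiff

noncomputable section

namespace Vale.Agent.P272

variable {n : ℕ} {X : Type} [TopologicalSpace X]

theorem schain_open (A : Atl n X) (j : Fin A.N) :
    IsOpen {x | x ∈ (A.e j).source ∧ ‖A.e j x‖ < 1} := by
  have e : {x | x ∈ (A.e j).source ∧ ‖A.e j x‖ < 1} =
      (A.e j).source ∩ A.e j ⁻¹' ball (0 : E n) 1 := Set.ext fun x => by simp
  rw [e]
  exact (A.e j).isOpen_inter_preimage isOpen_ball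

theorem schain_step (A : Atl n X) (j : Fin A.N) {V : Set X} (hV : IsOpen V)
    (hne : ({x | x ∈ (A.e j).source ∧ ‖A.e j x‖ < 1} ∩ V).Nonempty) :
    ∃ c : ℝ, 0 ≤ c ∧ ∀ w : X → ℝ, A.Sm w → (∀ x, 0 ≤ w x) →
      ∃ x ∈ V, w x ≤ c * ∫ y in ball (0 : E n) (3 / 2), A.loc w j y := by
  have hO := (A.e j).isOpen_inter_preimage_symm ((schain_open A j).inter hV)
  set O := (A.e j).target ∩ (A.e j).symm ⁻¹' ({x | x ∈ (A.e j).source ∧ ‖A.e j x‖ < 1} ∩ V)
  have h1 : O ⊆ ball (0 : E n) (3 / 2) := fun y hy => by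
    have h2 := hy.2.1.2
    rw [(A.e j).right_inv hy.1] at h2
    exact mem_ball_zero_iff.2 (h2.trans (by norm_num))
  have h2 : O.Nonempty := by
    obtain ⟨x, hx⟩ := hne
    refine ⟨A.e j x, (A.e j).map_source hx.1.1, ?_⟩
    rw [mem_preimage, (A.e j).left_inv hx.1.1]
    exact hx
  refine ⟨(volume.real O)⁻¹, inv_nonneg.2 measureReal_nonneg, fun w hw h0 => ?_⟩
  have h3 : IntegrableOn (A.loc w j) (ball (0 : E n) (3 / 2)) :=
    (((hw j).continuousOn.mono (A.tgt j)).integrableOn_compact (isCompact_closedBall _ _)).mono_set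
      (ball_subset_closedBall.trans (closedBall_subset_closedBall (by norm_num)))
  obtain ⟨y, hy, h4⟩ := exists_le_setAverage (hO.measure_ne_zero volume h2)
    ((measure_mono h1).trans_lt measure_ball_lt_top).ne (h3.mono_set h1)
  refine ⟨(A.e j).symm y, hy.2.2, h4.trans ?_⟩
  rw [setAverage_eq, smul_eq_mul]
  exact mul_le_mul_of_nonneg_left (setIntegral_mono_set h3 (Eventually.of_forall fun y => h0 _)
    h1.eventuallyLE) (inv_nonneg.2 measureReal_nonneg)

theorem schain (A : Atl n X) [ConnectedSpace X] (K M : ℝ) : ∃ L : ℝ, ∀ w : X → ℝ, A.Sm w →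
    (∀ x, 0 ≤ w x) → (∀ j x, x ∈ (A.e j).source → ‖A.e j x‖ < 1 →
      ∫ y in ball (0 : E n) (3 / 2), A.loc w j y ≤ K * (w x + M)) → (∃ x, w x = 0) →
    ∀ j, ∫ y in ball (0 : E n) (3 / 2), A.loc w j y ≤ L := by
  classical
  let U : Fin A.N → Set X := fun j => {x | x ∈ (A.e j).source ∧ ‖A.e j x‖ < 1}
  let Ad : (X → ℝ) → Prop := fun w => A.Sm w ∧ (∀ x, 0 ≤ w x) ∧
    ∀ j x, x ∈ (A.e j).source → ‖A.e j x‖ < 1 →
      ∫ y in ball (0 : E n) (3 / 2), A.loc w j y ≤ K * (w x + M)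
  let P : Fin A.N → Fin A.N → Prop := fun i k => ∃ L : ℝ, ∀ w, Ad w → (∃ x ∈ U i, w x = 0) →
    ∫ y in ball (0 : E n) (3 / 2), A.loc w k y ≤ L
  have hU : ∀ j, IsOpen (U j) := schain_open A
  have h0 : ∀ i, P i i := fun i => ⟨K * M, fun w hw ⟨x, hx, hx0⟩ => by
    have h1 := hw.2.2 i x hx.1 hx.2
    rwa [hx0, zero_add] at h1⟩
  have h1 : ∀ i j k, P i j → (U j ∩ U k).Nonempty → P i k := by
    rintro i j k ⟨L, hL⟩ hne
    obtain ⟨c, hc0, hc⟩ := schain_step A j (hU k) hne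
    refine ⟨|K| * (c * L + |M|), fun w hw hz => ?_⟩
    obtain ⟨x, hx, hx'⟩ := hc w hw.1 hw.2.1
    have h2 := mul_le_mul_of_nonneg_left (hL w hw hz) hc0
    refine (hw.2.2 k x hx.1 hx.2).trans ((le_abs_self _).trans ?_)
    rw [abs_mul]
    refine mul_le_mul_of_nonneg_left ((abs_add_le _ _).trans ?_) (abs_nonneg _)
    rw [abs_of_nonneg (hw.2.1 x)]
    linarith
  have h2 : ∀ j, (A.e j).symm 0 ∈ U j := fun j => by
    have h3 : (0 : E n) ∈ (A.e j).target := A.tgt j (mem_closedBall_self (by norm_num))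
    refine ⟨(A.e j).map_target h3, ?_⟩
    rw [(A.e j).right_inv h3, norm_zero]
    exact one_pos
  have h3 : ∀ i k, P i k := fun i k => by
    have h4 : IsClopen (⋃ j ∈ {j | P i j}, U j) := by
      refine ⟨isOpen_compl_iff.1 (isOpen_iff_forall_mem_open.2 fun x hx => ?_),
        isOpen_biUnion fun j _ => hU j⟩
      obtain ⟨l, hl⟩ := A.cov x
      refine ⟨U l, fun y hy hy' => ?_, hU l, hl⟩
      obtain ⟨j, hj, hyj⟩ := mem_iUnion₂.1 hy'
      exact hx (mem_iUnion₂.2 ⟨l, h1 i j l hj ⟨y, hyj, hy⟩, hl⟩)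
    have h5 := h4.eq_univ ⟨_, mem_iUnion₂.2 ⟨i, h0 i, h2 i⟩⟩
    have h6 : (A.e k).symm 0 ∈ ⋃ j ∈ {j | P i j}, U j := h5 ▸ mem_univ _
    obtain ⟨j, hj, hyj⟩ := mem_iUnion₂.1 h6
    exact h1 i j k hj ⟨_, hyj, h2 k⟩
  choose L hL using h3
  refine ⟨∑ p : Fin A.N × Fin A.N, |L p.1 p.2|, fun w hw hw0 hw1 ⟨x, hx⟩ j => ?_⟩
  obtain ⟨i, hi⟩ := A.cov x
  exact (hL i j w ⟨hw, hw0, hw1⟩ ⟨x, hi, hx⟩).trans ((le_abs_self _).trans
    (Finset.single_le_sum (f := fun p : Fin A.N × Fin A.N => |L p.1 p.2|)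
      (fun _ _ => abs_nonneg _) (Finset.mem_univ (i, j))))

end Vale.Agent.P272
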