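import Vale.Agent.P272.F.Defs

/-! P272 F/S/Glue: the Levi form of `χ ^ 2 * exp b`, and a smooth extension.

Plan. `D²(χ² e^b) a a = e^b (χ² D²b a a + (χ Db a + 2 Dχ a)² - 2 (Dχ a)² + 2 χ D²χ a a)` (compute the
first derivative near `y`, `Filter.EventuallyEq.fderiv_eq`, then the second one); bound `χ`, `Dχ`,
`D²χ` on the compact ball. `sglue_ext`: multiply by a `ContDiffBump` with radii `15 / 4` and `4`
(`contDiff_iff_contDiffAt`; outside `closedBall 0 4` the product vanishes near the point).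
Auxiliary names start with `sglue_`. -/

open Metric Set Filter Topology Complex MeasureTheory
open scoped ContDiff

noncomputable section

namespace Vale.Agent.P272

variable {n : ℕ}

theorem sglue_d1 {χ b : E n → ℝ} {z : E n} (hχ : DifferentiableAt ℝ χ z)
    (hb : DifferentiableAt ℝ b z) : HasFDerivAt (fun y => χ y ^ 2 * Real.exp (b y))
      ((χ z ^ 2 * Real.exp (b z)) • fderiv ℝ b z + (2 * χ z * Real.exp (b z)) • fderiv ℝ χ z) z := by
  refine ((hχ.hasFDerivAt.pow 2).mul hb.hasFDerivAt.exp).congr_fderiv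
    (ContinuousLinearMap.ext fun v => ?_)
  simp
  ring

theorem sglue_d2 {χ b : E n → ℝ} {y : E n} (hχ : ContDiffAt ℝ ∞ χ y) (hb : ContDiffAt ℝ ∞ b y)
    (a : E n) : fderiv ℝ (fderiv ℝ fun y => χ y ^ 2 * Real.exp (b y)) y a a =
      Real.exp (b y) * (χ y ^ 2 * fderiv ℝ (fderiv ℝ b) y a a +
        (χ y * fderiv ℝ b y a + 2 * fderiv ℝ χ y a) ^ 2 - 2 * fderiv ℝ χ y a ^ 2 +
        2 * χ y * fderiv ℝ (fderiv ℝ χ) y a a) := by
  have l2 : (2 : WithTop ℕ∞) ≤ ∞ := WithTop.coe_le_coe.2 (le_top : (2 : ℕ∞) ≤ ⊤)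
  have c2 := hχ.of_le l2
  have b2 := hb.of_le l2
  have e : (fderiv ℝ fun y => χ y ^ 2 * Real.exp (b y)) =ᶠ[𝓝 y] fun z =>
      (χ z ^ 2 * Real.exp (b z)) • fderiv ℝ b z + (2 * χ z * Real.exp (b z)) • fderiv ℝ χ z := by
    filter_upwards [c2.eventually (by simp), b2.eventually (by simp)] with z h1 h2
    exact (sglue_d1 (h1.differentiableAt (by simp)) (h2.differentiableAt (by simp))).fderiv
  have c1 := c2.differentiableAt (by simp)
  have b1 := b2.differentiableAt (by simp)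
  have c3 : DifferentiableAt ℝ (fderiv ℝ χ) y :=
    (c2.fderiv_right (m := 1) (by norm_num)).differentiableAt (by simp)
  have b3 : DifferentiableAt ℝ (fderiv ℝ b) y :=
    (b2.fderiv_right (m := 1) (by norm_num)).differentiableAt (by simp)
  have h := ((sglue_d1 c1 b1).smul b3.hasFDerivAt).add
    (((c1.hasFDerivAt.const_mul 2).mul b1.hasFDerivAt.exp).smul c3.hasFDerivAt)
  rw [e.fderiv_eq]
  refine (congrArg (fun T : E n →L[ℝ] E n →L[ℝ] ℝ => T a a) h.fderiv).trans ?_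
  simp
  ring

theorem sglue_levi {χ : E n → ℝ} (hχ : ∀ y, ‖y‖ ≤ 2 → ContDiffAt ℝ ∞ χ y) :
    ∃ C : ℝ, 0 ≤ C ∧ ∀ (b : E n → ℝ) (y a : E n), ‖y‖ ≤ 2 → ContDiffAt ℝ ∞ b y →
      Real.exp (b y) * (χ y ^ 2 * levi b y a - C * ‖a‖ ^ 2) ≤
        levi (fun y => χ y ^ 2 * Real.exp (b y)) y a := by
  have l2 : (2 : WithTop ℕ∞) ≤ ∞ := WithTop.coe_le_coe.2 (le_top : (2 : ℕ∞) ≤ ⊤)
  have hc : ContinuousOn (fun y => 2 * ‖fderiv ℝ χ y‖ ^ 2 + 2 * |χ y| * ‖fderiv ℝ (fderiv ℝ χ) y‖)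
      (closedBall 0 2) := fun y hy => by
    have c2 := (hχ y (mem_closedBall_zero_iff.1 hy)).of_le l2
    have c1 := c2.fderiv_right (m := 1) (by norm_num)
    have c0 := c1.fderiv_right (m := 0) (by norm_num)
    exact (((c1.continuousAt.norm.pow 2).const_mul 2).add
      ((c2.continuousAt.abs.const_mul 2).mul c0.continuousAt.norm)).continuousWithinAt
  obtain ⟨C, hC⟩ := (isCompact_closedBall (0 : E n) 2).exists_bound_of_continuousOn hc
  refine ⟨|C|, abs_nonneg C, fun b y a hy hb => ?_⟩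
  have h1 := ((le_abs_self _).trans (hC y (mem_closedBall_zero_iff.2 hy))).trans (le_abs_self C)
  have key : ∀ v : E n, ‖v‖ = ‖a‖ → -(|C| * ‖a‖ ^ 2) ≤
      (χ y * fderiv ℝ b y v + 2 * fderiv ℝ χ y v) ^ 2 - 2 * fderiv ℝ χ y v ^ 2 +
        2 * χ y * fderiv ℝ (fderiv ℝ χ) y v v := by
    intro v hv
    have e1 : |fderiv ℝ χ y v| ≤ ‖fderiv ℝ χ y‖ * ‖a‖ := hv ▸ (fderiv ℝ χ y).le_opNorm v
    have e2 : |fderiv ℝ (fderiv ℝ χ) y v v| ≤ ‖fderiv ℝ (fderiv ℝ χ) y‖ * ‖a‖ * ‖a‖ :=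
      hv ▸ (fderiv ℝ (fderiv ℝ χ) y).le_opNorm₂ v v
    have e3 := pow_le_pow_left₀ (abs_nonneg _) e1 2
    rw [sq_abs] at e3
    have e4 := mul_le_mul_of_nonneg_left e2 (abs_nonneg (χ y))
    rw [← abs_mul] at e4
    have e5 := neg_abs_le (χ y * fderiv ℝ (fderiv ℝ χ) y v v)
    have e6 := mul_le_mul_of_nonneg_right h1 (sq_nonneg ‖a‖)
    have e7 := sq_nonneg (χ y * fderiv ℝ b y v + 2 * fderiv ℝ χ y v)
    linarith
  have k1 := key a rfl
  have k2 := key (I • a) (by rw [norm_smul, norm_I, one_mul])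
  have k3 : 0 ≤ |C| * ‖a‖ ^ 2 := by positivity
  unfold levi
  rw [sglue_d2 (hχ y hy) hb, sglue_d2 (hχ y hy) hb, ← mul_add, mul_div_assoc]
  refine mul_le_mul_of_nonneg_left ?_ (Real.exp_pos _).le
  linarith

theorem sglue_ext {u : E n → ℝ} (hu : ∀ y, ‖y‖ ≤ 4 → ContDiffAt ℝ ∞ u y) :
    ∃ φ : E n → ℝ, ContDiff ℝ ∞ φ ∧ ∀ y, ‖y‖ ≤ 7 / 2 → φ y = u y ∧ ∀ a, levi φ y a = levi u y a := by
  let β : ContDiffBump (0 : E n) := ⟨15 / 4, 31 / 8, by norm_num, by norm_num⟩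
  refine ⟨fun y => β y * u y, contDiff_iff_contDiffAt.2 fun y => ?_, fun y hy => ?_⟩
  · by_cases hy : ‖y‖ ≤ 4
    · exact β.contDiff.contDiffAt.mul (hu y hy)
    · refine (contDiffAt_const (c := (0 : ℝ))).congr_of_eventuallyEq ?_
      have h1 : ∀ᶠ z in 𝓝 y, 4 < ‖z‖ :=
        continuous_norm.continuousAt.eventually_const_lt (not_le.1 hy)
      filter_upwards [h1] with z hz
      rw [β.zero_of_le_dist (by
        rw [dist_zero_right]
        show (31 / 8 : ℝ) ≤ ‖z‖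
        linarith), zero_mul]
  · have h1 : ∀ᶠ z in 𝓝 y, ‖z‖ < 15 / 4 :=
      continuous_norm.continuousAt.eventually_lt_const (by linarith)
    have h2 : (fun y => β y * u y) =ᶠ[𝓝 y] u := by
      filter_upwards [h1] with z hz
      rw [β.one_of_mem_closedBall (mem_closedBall_zero_iff.2 hz.le), one_mul]
    refine ⟨h2.self_of_nhds, fun a => ?_⟩
    unfold levi
    rw [h2.fderiv.fderiv_eq]

end Vale.Agent.P272
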