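import Vale.Agent.P272.F.S.Loc
import Vale.Agent.P272.F.S.Chain
import Vale.Agent.P272.F.S.Glue

/-! P272 F/S/Ext: uniform local barriers in every chart.

Plan. Let `|τ.u j y| ≤ M` for all `j` and `‖y‖ ≤ 4`. For `ψ` and `j` let `φ` be `sglue_ext` of
`τ.u j + A.loc ψ j - M` (adding a constant does not change `levi`; use
`x = (A.e j).symm y`). Then `φ ≤ 0`, `φ` is psh on `‖y‖ ≤ 7/2` and `w ≤ -φ ≤ w + 2 M` for
`w = -A.loc ψ j`. `sloc_sub` gives the hypothesis of `schain` for `w = -ψ` with `2 M`; so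
`∫ -φ ≤ L + 2 M vol`; apply `sloc_bar`. Auxiliary names start with `sext_`. -/

open Metric Set Filter Topology Complex MeasureTheory
open scoped ContDiff

noncomputable section

namespace Vale.Agent.P272

variable {n : ℕ} {X : Type} [TopologicalSpace X] {A : Atl n X}

theorem sext_levi (f : E n → ℝ) (M : ℝ) (y a : E n) : levi (fun y => f y - M) y a = levi f y a := by
  have : fderiv ℝ (fun y => f y - M) = fderiv ℝ f := funext fun y => fderiv_sub_const M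
  rw [levi, levi, this]

theorem sext_mem (j : Fin A.N) {y : E n} (hy : ‖y‖ ≤ 4) : y ∈ (A.e j).target :=
  A.tgt j (mem_closedBall_zero_iff.2 hy)

theorem sext_bd (τ : A.Pot) : ∃ M : ℝ, ∀ j y, ‖y‖ ≤ 4 → |τ.u j y| ≤ M := by
  have h : ∀ j, ∃ C : ℝ, ∀ y ∈ closedBall (0 : E n) 4, ‖τ.u j y‖ ≤ C := fun j =>
    (isCompact_closedBall 0 4).exists_bound_of_continuousOn ((τ.sm j).continuousOn.mono (A.tgt j))
  choose C hC using h
  refine ⟨∑ j, |C j|, fun j y hy => (hC j y (mem_closedBall_zero_iff.2 hy)).trans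
    ((le_abs_self _).trans ?_)⟩
  exact Finset.single_le_sum (f := fun j => |C j|) (fun _ _ => abs_nonneg _) (Finset.mem_univ j)

theorem sext_int {f : E n → ℝ} (hf : ContinuousOn f (closedBall 0 4)) :
    IntegrableOn f (ball (0 : E n) (3 / 2)) :=
  (hf.integrableOn_compact (isCompact_closedBall 0 4)).mono_set
    (ball_subset_closedBall.trans (closedBall_subset_closedBall (by norm_num)))

theorem sext [ConnectedSpace X] (τ : A.Pot) : ∃ η K : ℝ, 0 < η ∧ 1 ≤ K ∧ ∀ ψ, A.Sm ψ →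
    (∀ x, ψ x ≤ 0) → (∃ x, ψ x = 0) →
    (∀ j x a, x ∈ (A.e j).source → 0 ≤ levi (fun y => τ.u j y + A.loc ψ j y) (A.e j x) a) →
    ∀ j, ∃ b : E n → ℝ, ContDiff ℝ ∞ b ∧ ∀ y, ‖y‖ ≤ 5 / 4 → |b y| ≤ K ∧ (∀ a, 0 ≤ levi b y a) ∧
      Real.exp (-η * A.loc ψ j y) ≤ K * (1 + ∑ i, levi b y (eb i)) := by
  obtain ⟨M, hM⟩ := sext_bd τ
  obtain ⟨K₀, hK₀, hsub⟩ := sloc_sub n
  obtain ⟨L, hL⟩ := schain A K₀ (2 * M)
  obtain ⟨η, K, hη, hK, hbar⟩ := sloc_bar n (L + volume.real (ball (0 : E n) (3 / 2)) * (2 * M))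
  refine ⟨η, K, hη, hK, fun ψ hψ h0 h1 h2 => ?_⟩
  have h3 : ∀ j, ∃ φ : E n → ℝ, ContDiff ℝ ∞ φ ∧
      (∀ y, ‖y‖ ≤ 7 / 2 → φ y ≤ 0 ∧ ∀ a, 0 ≤ levi φ y a) ∧
      ∀ y, ‖y‖ ≤ 7 / 2 → -A.loc ψ j y ≤ -φ y ∧ -φ y ≤ -A.loc ψ j y + 2 * M := fun j => by
    obtain ⟨φ, h4, h5⟩ := sglue_ext (u := fun y => τ.u j y + A.loc ψ j y - M) fun y hy =>
      (((τ.sm j).add (hψ j)).sub contDiffOn_const).contDiffAt
        ((A.e j).open_target.mem_nhds (sext_mem j hy))
    refine ⟨φ, h4, fun y hy => ⟨?_, fun a => ?_⟩, fun y hy => ?_⟩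
    · have h6 := abs_le.1 (hM j y (by linarith))
      have h7 : A.loc ψ j y ≤ 0 := h0 _
      have h8 := (h5 y hy).1
      linarith [h6.2]
    · have h6 := sext_mem j (show ‖y‖ ≤ 4 by linarith)
      have h7 := h2 j _ a ((A.e j).map_target h6)
      rw [(A.e j).right_inv h6] at h7
      rw [(h5 y hy).2 a, sext_levi]
      exact h7
    · have h6 := abs_le.1 (hM j y (by linarith))
      have h8 := (h5 y hy).1
      constructor <;> linarith [h6.1, h6.2]
  choose φ h4 h5 h6 using h3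
  have hw : A.Sm fun x => -ψ x := fun j => (hψ j).neg
  have i1 : ∀ j, IntegrableOn (A.loc (fun x => -ψ x) j) (ball (0 : E n) (3 / 2)) := fun j =>
    sext_int ((hw j).continuousOn.mono (A.tgt j))
  have i2 : ∀ j, IntegrableOn (fun y => -φ j y) (ball (0 : E n) (3 / 2)) := fun j =>
    sext_int (h4 j).continuous.neg.continuousOn
  have hb : ∀ y ∈ ball (0 : E n) (3 / 2), ‖y‖ ≤ 7 / 2 := fun y hy => by
    have := mem_ball_zero_iff.1 hy
    linarith
  have h7 := hL _ hw (fun x => neg_nonneg.2 (h0 x)) (fun j x hx hx' => by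
    refine (setIntegral_mono_on (i1 j) (i2 j) measurableSet_ball fun y hy =>
      (h6 j y (hb y hy)).1).trans ((hsub _ (h4 j) (h5 j) _ hx'.le).trans
        (mul_le_mul_of_nonneg_left ?_ hK₀.le))
    have h8 := (h6 j (A.e j x) (by linarith)).2
    rwa [Atl.loc, (A.e j).left_inv hx] at h8) (h1.imp fun x hx => neg_eq_zero.2 hx)
  intro j
  have i3 : IntegrableOn (fun _ : E n => 2 * M) (ball (0 : E n) (3 / 2)) :=
    sext_int continuousOn_const
  obtain ⟨b, h8, h9⟩ := hbar _ (h4 j) (h5 j) (by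
    refine (setIntegral_mono_on (i2 j) ((i1 j).add i3) measurableSet_ball fun y hy =>
      (h6 j y (hb y hy)).2).trans ?_
    rw [integral_add' (i1 j) i3, setIntegral_const, smul_eq_mul]
    linarith [h7 j])
  refine ⟨b, h8, fun y hy => ⟨(h9 y hy).1, (h9 y hy).2.1, le_trans (Real.exp_le_exp.2 ?_)
    (h9 y hy).2.2⟩⟩
  have h10 := mul_le_mul_of_nonneg_left (h6 j y (by linarith)).1 hη.le
  linarith

end Vale.Agent.P272
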