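import Vale.Agent.P272.F.Defs

/-! P272 F/S/One: real functions that are convex in `log s`.

Plan. `e s = s * d s` is monotone on `[0, R]`, `e 0 = 0`, so `0 ≤ d` on `(0, R)` and `m` is monotone
(`sone_mono`). `sone_main`: by the mean value theorem `m (1/4) - m (1/8) = d ξ / 8 ≥ e ξ / 2`, so
`e ≤ 2 L` on `[0, 1/8]`. (a) `m ≤ 0` on `[0, 1/4]`, and `s ↦ (∫ 0..s, m) - s * m s + 2 L s` has
derivative `2 L - e ≥ 0`: this bounds `∫ m`. (b) With `G = ∫ 0..1/8, g`: `s ↦ s * (∫ 0..s, g) - e s` has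
derivative `∫ 0..s, g ≥ 0`, so `e s ≤ s G`, `d ≤ G`, `m r - m 0 ≤ r G`. (c) `m s - 2 L log s` is
antitone on `(0, 1/8]`. With `r = 1 / (8 (1 + G))`: `-m 0 ≤ 1/8 + L + 2 L log (1 + G)`; take
`η = 1 / (2 L)`. Auxiliary names start with `sone_`. -/

open Metric Set Filter Topology Complex MeasureTheory
open scoped ContDiff

noncomputable section

namespace Vale.Agent.P272

theorem sone_mon {f f' : ℝ → ℝ} {a b : ℝ} (hd : ∀ x, a ≤ x → x ≤ b → HasDerivAt f (f' x) x)
    (h0 : ∀ x, a < x → x < b → 0 ≤ f' x) : MonotoneOn f (Icc a b) := by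
  refine monotoneOn_of_hasDerivWithinAt_nonneg (f' := f') (convex_Icc a b)
    (fun x hx => (hd x hx.1 hx.2).continuousAt.continuousWithinAt) ?_ ?_
  · intro x hx
    rw [interior_Icc] at hx
    exact (hd x hx.1.le hx.2.le).hasDerivWithinAt
  · intro x hx
    rw [interior_Icc] at hx
    exact h0 x hx.1 hx.2

theorem sone_emono {d g : ℝ → ℝ} {R : ℝ}
    (hd : ∀ s, HasDerivAt (fun s => s * d s) (s * g s) s) (hg : ∀ s, 0 ≤ s → s ≤ R → 0 ≤ g s) :
    MonotoneOn (fun s => s * d s) (Icc 0 R) :=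
  sone_mon (fun x _ _ => hd x) fun x h1 h2 => mul_nonneg h1.le (hg x h1.le h2.le)

theorem sone_int {g : ℝ → ℝ} (hg : Continuous g) (x : ℝ) :
    HasDerivAt (fun s => ∫ t in (0 : ℝ)..s, g t) (g x) x :=
  intervalIntegral.integral_hasDerivAt_right (hg.intervalIntegrable _ _)
    (hg.stronglyMeasurableAtFilter _ _) hg.continuousAt

theorem sone_mono {m d g : ℝ → ℝ} {R : ℝ} (hR : 0 ≤ R) (hm : ∀ s, HasDerivAt m (d s) s)
    (hd : ∀ s, HasDerivAt (fun s => s * d s) (s * g s) s) (hg : ∀ s, 0 ≤ s → s ≤ R → 0 ≤ g s) :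
    MonotoneOn m (Icc 0 R) := by
  refine sone_mon (fun x _ _ => hm x) fun x h1 h2 => ?_
  have h := sone_emono hd hg ⟨le_rfl, hR⟩ ⟨h1.le, h2.le⟩ h1.le
  simp only [zero_mul] at h
  exact le_of_mul_le_mul_left (by simpa using h) h1

theorem sone_main {L : ℝ} (hL : 0 < L) : ∃ η K : ℝ, 0 < η ∧ 1 ≤ K ∧ ∀ m d g : ℝ → ℝ,
    (∀ s, HasDerivAt m (d s) s) → (∀ s, HasDerivAt (fun s => s * d s) (s * g s) s) →
    Continuous g → (∀ s, 0 ≤ s → s ≤ 1 / 4 → 0 ≤ g s) → m (1 / 4) ≤ 0 → -L ≤ m (1 / 8) →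
    |∫ s in Ioc (0 : ℝ) (1 / 8), m s| ≤ K ∧
      Real.exp (-η * m 0) ≤ K * (1 + ∫ s in Ioc (0 : ℝ) (1 / 8), g s) := by
  have hE : 1 ≤ Real.exp (1 / 2 + 1 / (16 * L)) := Real.one_le_exp (by positivity)
  refine ⟨1 / (2 * L), Real.exp (1 / 2 + 1 / (16 * L)) + L, by positivity, by linarith, ?_⟩
  intro m d g hm hd hgc hg h4 h8
  have hmc : Continuous m := continuous_iff_continuousAt.2 fun s => (hm s).continuousAt
  have mono := sone_mono (by norm_num : (0 : ℝ) ≤ 1 / 4) hm hd hg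
  have emono := sone_emono hd hg
  have he : ∀ s, 0 ≤ s → s ≤ 1 / 8 → s * d s ≤ 2 * L := by
    intro s h0 h1
    obtain ⟨ξ, hξ, e⟩ := exists_hasDerivAt_eq_slope m d (by norm_num : (1 / 8 : ℝ) < 1 / 4)
      hmc.continuousOn (fun x _ => hm x)
    have k1 : s * d s ≤ ξ * d ξ :=
      emono ⟨h0, by linarith⟩ ⟨by linarith [hξ.1], hξ.2.le⟩ (by linarith [hξ.1])
    have k2 : d ξ ≤ 8 * L := by rw [e]; norm_num; linarith
    have k3 : ξ * d ξ ≤ ξ * (8 * L) := mul_le_mul_of_nonneg_left k2 (by linarith [hξ.1])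
    nlinarith [hξ.2]
  have h08 : (0 : ℝ) ≤ 1 / 8 := by norm_num
  rw [← intervalIntegral.integral_of_le h08, ← intervalIntegral.integral_of_le h08]
  constructor
  · have up : ∫ s in (0 : ℝ)..(1 / 8), m s ≤ 0 := by
      have := intervalIntegral.integral_nonneg (μ := volume) (f := fun s => -m s) h08 (fun s hs => by
        have := mono ⟨hs.1, by linarith [hs.2]⟩ ⟨by norm_num, le_rfl⟩ (by linarith [hs.2] : s ≤ 1 / 4)
        linarith)
      rw [intervalIntegral.integral_neg] at this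
      linarith
    have hH := sone_mon (f := fun s => (∫ t in (0 : ℝ)..s, m t) - s * m s + 2 * L * s)
      (f' := fun s => m s - (1 * m s + s * d s) + 2 * L * 1) (a := 0) (b := 1 / 8)
      (fun x _ _ => (((sone_int hmc x).sub ((hasDerivAt_id' x).mul (hm x))).add
        ((hasDerivAt_id' x).const_mul (2 * L))))
      (fun x h1 h2 => by linarith [he x h1.le h2.le]) ⟨le_rfl, h08⟩ ⟨h08, le_rfl⟩ h08
    simp only [intervalIntegral.integral_same] at hH
    rw [abs_le]
    constructor <;> linarith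
  · set G := ∫ s in (0 : ℝ)..(1 / 8), g s with hG
    have hGm : MonotoneOn (fun s => ∫ t in (0 : ℝ)..s, g t) (Icc 0 (1 / 8)) :=
      sone_mon (fun x _ _ => sone_int hgc x)
        fun x h1 h2 => hg x h1.le (by linarith)
    have hG0 : ∀ s, 0 ≤ s → s ≤ 1 / 8 → 0 ≤ ∫ t in (0 : ℝ)..s, g t := by
      intro s h1 h2
      have := hGm ⟨le_rfl, h08⟩ ⟨h1, h2⟩ h1
      simpa using this
    have hGp : 0 ≤ G := hG0 _ h08 le_rfl
    have hJ := sone_mon (f := fun s => s * (∫ t in (0 : ℝ)..s, g t) - s * d s)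
      (f' := fun s => (1 * (∫ t in (0 : ℝ)..s, g t) + s * g s) - s * g s) (a := 0) (b := 1 / 8)
      (fun x _ _ => ((hasDerivAt_id' x).mul (sone_int hgc x)).sub (hd x))
      (fun x h1 h2 => by linarith [hG0 x h1.le h2.le])
    have hdG : ∀ s, 0 < s → s ≤ 1 / 8 → d s ≤ G := by
      intro s h1 h2
      have k1 := hJ ⟨le_rfl, h08⟩ ⟨h1.le, h2⟩ h1.le
      have k2 : (∫ t in (0 : ℝ)..s, g t) ≤ G := hGm ⟨h1.le, h2⟩ ⟨h08, le_rfl⟩ h2
      simp only [zero_mul, sub_zero] at k1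
      have k3 : s * d s ≤ s * G := by nlinarith
      exact le_of_mul_le_mul_left k3 h1
    set r : ℝ := 1 / (8 * (1 + G)) with hr
    have r0 : 0 < r := by positivity
    have r1 : r ≤ 1 / 8 := one_div_le_one_div_of_le (by norm_num) (by linarith)
    have rG : G * r ≤ 1 / 8 := by
      rw [hr, mul_one_div, div_le_div_iff₀ (by positivity) (by norm_num)]
      linarith
    have b1 := sone_mon (f := fun s => G * s - m s) (f' := fun s => G * 1 - d s) (a := 0) (b := 1 / 8)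
      (fun x _ _ => ((hasDerivAt_id' x).const_mul G).sub (hm x))
      (fun x h1 h2 => by linarith [hdG x h1 h2.le]) ⟨le_rfl, h08⟩ ⟨r0.le, r1⟩ r0.le
    have b2 := sone_mon (f := fun s => 2 * L * Real.log s - m s) (f' := fun s => 2 * L * s⁻¹ - d s)
      (a := r) (b := 1 / 8)
      (fun x h1 _ => ((Real.hasDerivAt_log (by linarith)).const_mul (2 * L)).sub (hm x))
      (fun x h1 h2 => by
        have x0 : 0 < x := by linarith
        have := he x x0.le h2.le
        rw [sub_nonneg, ← div_eq_mul_inv, le_div_iff₀ x0]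
        linarith) ⟨le_rfl, r1⟩ ⟨r1, le_rfl⟩ r1
    have hlog : Real.log r = Real.log (1 / 8) - Real.log (1 + G) := by
      rw [← Real.log_div (by norm_num) (by positivity), hr, div_div]
    dsimp only at b1 b2
    rw [hlog] at b2
    have key : -m 0 ≤ L + 1 / 8 + 2 * L * Real.log (1 + G) := by linarith
    have k2 : -(1 / (2 * L)) * m 0 ≤ 1 / 2 + 1 / (16 * L) + Real.log (1 + G) := by
      have e1 : -(1 / (2 * L)) * m 0 = (-m 0) / (2 * L) := by ring
      have e2 : 1 / 2 + 1 / (16 * L) + Real.log (1 + G) =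
          (L + 1 / 8 + 2 * L * Real.log (1 + G)) / (2 * L) := by field_simp; ring
      rw [e1, e2]
      exact div_le_div_of_nonneg_right key (by positivity)
    calc Real.exp (-(1 / (2 * L)) * m 0) ≤ Real.exp (1 / 2 + 1 / (16 * L) + Real.log (1 + G)) :=
          Real.exp_le_exp.2 k2
      _ = Real.exp (1 / 2 + 1 / (16 * L)) * (1 + G) := by
          rw [Real.exp_add, Real.exp_log (by positivity)]
      _ ≤ _ := mul_le_mul_of_nonneg_right (by linarith) (by positivity)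

end Vale.Agent.P272
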