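import Vale.Agent.P272.F.S.Ode
import Vale.Agent.P272.F.S.One
import Vale.Agent.P272.F.S.Lin

/-! P272 F/S/Loc: the local barrier.

Plan. `sloc_cv`: for `0 < s`, `bm φ z s = (s ^ (2 n))⁻¹ * ∫ y in ball z s, φ y` (only a positive
constant depending on `s` is needed: `Measure.setIntegral_comp_smul_of_pos`, translation invariance).
`sloc_sub`: `sone_mono` and `sode_bm` give `vol * φ x = bm φ x 0 ≤ bm φ x (5/2)`, and
`ball 0 (3/2) ⊆ ball x (5/2) ⊆ ball 0 (7/2)`. `sloc_bar`: `b z = ∫ s in Ioc 0 (1/8), bm φ z s`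
(`spar_smooth` twice), `levi b z v = ∫ s, ∫ a, levi φ (z + s • a) v` (`spar_levi` twice, `spar_shift`),
`levi φ y a ≤ ∑ i, levi φ y (eb i)` for `‖a‖ ≤ 1` (`slin_op`, `slin_tr`), then `sone_main` with
`m = bm φ z`, `m 0 = vol * φ z`. Auxiliary names start with `sloc_`. -/

open Metric Set Filter Topology Complex MeasureTheory
open scoped ContDiff

noncomputable section

namespace Vale.Agent.P272

variable {n : ℕ}

theorem sloc_cv (n : ℕ) {s : ℝ} (hs : 0 < s) : ∃ c : ℝ, 0 < c ∧ ∀ (φ : E n → ℝ) (z : E n),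
    bm φ z s = c * ∫ y in ball z s, φ y := by
  refine ⟨(s ^ Module.finrank ℝ (E n))⁻¹, by positivity, fun φ z => ?_⟩
  have h1 := Measure.setIntegral_comp_smul_of_pos volume (fun x : E n => φ (z + x)) (ball 0 1) hs
  have h2 := (measurePreserving_add_left (volume : Measure (E n)) z).setIntegral_preimage_emb
    (measurableEmbedding_addLeft z) φ (ball z s)
  have h3 : (fun x : E n => z + x) ⁻¹' ball z s = ball 0 s := by
    ext x
    simp
  rw [h3] at h2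
  rw [bm, h1, smul_unitBall_of_pos hs, h2, smul_eq_mul]

theorem sloc_zero (n : ℕ) : ∃ w : ℝ, 0 < w ∧ ∀ (φ : E n → ℝ) (z : E n), bm φ z 0 = w * φ z := by
  refine ⟨(volume : Measure (E n)).real (ball 0 1), ENNReal.toReal_pos
    (measure_ball_pos _ _ one_pos).ne' measure_ball_lt_top.ne, fun φ z => ?_⟩
  simp only [bm, zero_smul, add_zero]
  rw [setIntegral_const, smul_eq_mul]

theorem sloc_norm {z a : E n} {s t R : ℝ} (hz : ‖z‖ ≤ t) (ha : a ∈ ball (0 : E n) 1) (h0 : 0 ≤ s)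
    (hs : t + s ≤ R) : ‖z + s • a‖ ≤ R := by
  have h1 := mem_ball_zero_iff.1 ha
  have h2 := norm_add_le z (s • a)
  rw [norm_smul, Real.norm_of_nonneg h0] at h2
  nlinarith

theorem sloc_mono {φ : E n → ℝ} (hφ : ContDiff ℝ ∞ φ) {x x' : E n} {s s' : ℝ}
    (h : ∀ y ∈ ball x' s', φ y ≤ 0) (hs : s + dist x x' ≤ s') :
    ∫ y in ball x s, -φ y ≤ ∫ y in ball x' s', -φ y := by
  refine setIntegral_mono_set (spar_int hφ.continuous.neg isBounded_ball) ?_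
    (ball_subset_ball' hs).eventuallyLE
  exact (ae_restrict_iff' measurableSet_ball).2 (ae_of_all _ fun y hy => neg_nonneg.2 (h y hy))

theorem sloc_sub (n : ℕ) : ∃ K : ℝ, 0 < K ∧ ∀ φ : E n → ℝ, ContDiff ℝ ∞ φ →
    (∀ y, ‖y‖ ≤ 7 / 2 → φ y ≤ 0 ∧ ∀ a, 0 ≤ levi φ y a) → ∀ x, ‖x‖ ≤ 1 →
    ∫ y in ball (0 : E n) (3 / 2), -φ y ≤ K * -φ x := by
  obtain ⟨c, hc, h1⟩ := sloc_cv n (s := 5 / 2) (by norm_num)
  obtain ⟨w, hw, h2⟩ := sloc_zero n
  refine ⟨w / c, by positivity, fun φ hφ h x hx => ?_⟩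
  obtain ⟨d, hd, hd'⟩ := sode_bm hφ x
  have h3 := sone_mono (R := 5 / 2) (by norm_num) hd hd' (fun s h0 hs => mul_nonneg (by norm_num)
    (setIntegral_nonneg measurableSet_ball fun a ha =>
      (h _ (sloc_norm hx ha h0 (by linarith))).2 a)) ⟨le_rfl, by norm_num⟩
    ⟨by norm_num, le_rfl⟩ (by norm_num : (0 : ℝ) ≤ 5 / 2)
  rw [h1, h2] at h3
  have h4 := sloc_mono hφ (x := 0) (x' := x) (s := 3 / 2) (s' := 5 / 2) (fun y hy => (h y (by
    have := norm_le_norm_add_norm_sub' y x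
    linarith [mem_ball_iff_norm.1 hy])).1) (by rw [dist_zero_left]; linarith)
  refine h4.trans ?_
  rw [integral_neg, div_mul_eq_mul_div, le_div_iff₀ hc]
  linarith

theorem sloc_sm {φ : E n → ℝ} (hφ : ContDiff ℝ ∞ φ) :
    ContDiff ℝ ∞ fun p : E n × ℝ => bm φ p.1 p.2 :=
  spar_smooth (G := fun q : (E n × ℝ) × E n => φ (q.1.1 + q.1.2 • q.2))
    (hφ.comp (by fun_prop)) isBounded_ball measurableSet_ball

theorem sloc_levi {φ : E n → ℝ} (hφ : ContDiff ℝ ∞ φ) (y v : E n) :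
    levi (fun z => ∫ s in Ioc (0 : ℝ) (1 / 8), bm φ z s) y v =
      ∫ s in Ioc (0 : ℝ) (1 / 8), ∫ a in ball (0 : E n) 1, levi φ (y + s • a) v := by
  refine (spar_levi (sloc_sm hφ) (isBounded_Ioc _ _) measurableSet_Ioc y v).trans ?_
  refine congrArg _ (funext fun s => ?_)
  refine (spar_levi (G := fun q : E n × E n => φ (q.1 + s • q.2)) (hφ.comp (by fun_prop))
    isBounded_ball measurableSet_ball y v).trans ?_
  exact congrArg _ (funext fun a => spar_shift φ (s • a) y v)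

theorem sloc_c1 {φ : E n → ℝ} (hφ : ContDiff ℝ ∞ φ) (y v : E n) :
    ContDiff ℝ ∞ fun q : ℝ × E n => levi φ (y + q.1 • q.2) v :=
  (spar_cd hφ).comp (f := fun q : ℝ × E n => (y + q.1 • q.2, v)) (by fun_prop)

theorem sloc_c2 {φ : E n → ℝ} (hφ : ContDiff ℝ ∞ φ) (y : E n) :
    ContDiff ℝ ∞ fun q : ℝ × E n => levi φ (y + q.1 • q.2) q.2 :=
  (spar_cd hφ).comp (f := fun q : ℝ × E n => (y + q.1 • q.2, q.2)) (by fun_prop)

theorem sloc_tr {φ : E n → ℝ} (hφ : ContDiff ℝ ∞ φ) {y a : E n} (h : ∀ a, 0 ≤ levi φ y a)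
    (ha : a ∈ ball (0 : E n) 1) : levi φ y a ≤ ∑ i, levi φ y (eb i) := by
  obtain ⟨Γ, h1, h2⟩ := slin_op (y := y) (hφ.of_le (by norm_cast)).contDiffAt
  simp only [h2] at h ⊢
  refine (slin_tr h1 h a).trans (mul_le_of_le_one_left (Finset.sum_nonneg fun i _ => h _) ?_)
  exact pow_le_one₀ (norm_nonneg _) (mem_ball_zero_iff.1 ha).le

theorem sloc_b {φ : E n → ℝ} (hφ : ContDiff ℝ ∞ φ) :
    ContDiff ℝ ∞ fun z => ∫ s in Ioc (0 : ℝ) (1 / 8), bm φ z s := by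
  have h := spar_smooth (μ := volume) (sloc_sm hφ) (isBounded_Ioc 0 (1 / 8)) measurableSet_Ioc
  exact h

theorem sloc_g {φ : E n → ℝ} (hφ : ContDiff ℝ ∞ φ) (y : E n) :
    Continuous fun s : ℝ => 4 * ∫ a in ball (0 : E n) 1, levi φ (y + s • a) a :=
  continuous_const.mul (spar_smooth (G := fun q : ℝ × E n => levi φ (y + q.1 • q.2) q.2)
    (sloc_c2 hφ y) isBounded_ball measurableSet_ball).continuous

theorem sloc_H {φ : E n → ℝ} (hφ : ContDiff ℝ ∞ φ) (y v : E n) :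
    Continuous fun s : ℝ => ∫ a in ball (0 : E n) 1, levi φ (y + s • a) v :=
  (spar_smooth (G := fun q : ℝ × E n => levi φ (y + q.1 • q.2) v)
    (sloc_c1 hφ y v) isBounded_ball measurableSet_ball).continuous

theorem sloc_in {φ : E n → ℝ} (hφ : ContDiff ℝ ∞ φ) {y : E n} {s : ℝ}
    (h : ∀ a ∈ ball (0 : E n) 1, ∀ v, 0 ≤ levi φ (y + s • a) v) :
    ∫ a in ball (0 : E n) 1, levi φ (y + s • a) a ≤
      ∑ i, ∫ a in ball (0 : E n) 1, levi φ (y + s • a) (eb i) := by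
  have c1 : ∀ v, Continuous fun a : E n => levi φ (y + s • a) v := fun v =>
    (spar_cd hφ).continuous.comp (f := fun a : E n => (y + s • a, v)) (by fun_prop)
  have c2 : Continuous fun a : E n => levi φ (y + s • a) a :=
    (spar_cd hφ).continuous.comp (f := fun a : E n => (y + s • a, a)) (by fun_prop)
  have c3 : Continuous fun a : E n => ∑ i, levi φ (y + s • a) (eb i) :=
    continuous_finsetSum _ fun i _ => c1 (eb i)
  rw [← integral_finsetSum _ fun i _ => spar_int (c1 (eb i)) isBounded_ball]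
  exact setIntegral_mono_on (spar_int c2 isBounded_ball) (spar_int c3 isBounded_ball)
    measurableSet_ball fun a ha => sloc_tr hφ (h a ha) ha

theorem sloc_out {φ : E n → ℝ} (hφ : ContDiff ℝ ∞ φ) {y : E n}
    (h : ∀ s ∈ Ioc (0 : ℝ) (1 / 8), ∀ a ∈ ball (0 : E n) 1, ∀ v, 0 ≤ levi φ (y + s • a) v) :
    ∫ s in Ioc (0 : ℝ) (1 / 8), 4 * ∫ a in ball (0 : E n) 1, levi φ (y + s • a) a ≤
      4 * ∑ i, levi (fun z => ∫ s in Ioc (0 : ℝ) (1 / 8), bm φ z s) y (eb i) := by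
  have c3 : Continuous fun s : ℝ =>
      4 * ∑ i, ∫ a in ball (0 : E n) 1, levi φ (y + s • a) (eb i) :=
    continuous_const.mul (continuous_finsetSum _ fun i _ => sloc_H hφ y (eb i))
  rw [Finset.sum_congr rfl fun i _ => sloc_levi hφ y (eb i),
    ← integral_finsetSum _ fun i _ => spar_int (sloc_H hφ y (eb i)) (isBounded_Ioc _ _),
    ← integral_const_mul]
  exact setIntegral_mono_on (spar_int (sloc_g hφ y) (isBounded_Ioc _ _))
    (spar_int c3 (isBounded_Ioc _ _)) measurableSet_Ioc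
    fun s hs => mul_le_mul_of_nonneg_left (sloc_in hφ (h s hs)) (by norm_num)

theorem sloc_bar (n : ℕ) (L : ℝ) : ∃ η K : ℝ, 0 < η ∧ 1 ≤ K ∧ ∀ φ : E n → ℝ, ContDiff ℝ ∞ φ →
    (∀ y, ‖y‖ ≤ 7 / 2 → φ y ≤ 0 ∧ ∀ a, 0 ≤ levi φ y a) →
    ∫ y in ball (0 : E n) (3 / 2), -φ y ≤ L → ∃ b : E n → ℝ, ContDiff ℝ ∞ b ∧
    ∀ y, ‖y‖ ≤ 5 / 4 → |b y| ≤ K ∧ (∀ a, 0 ≤ levi b y a) ∧
      Real.exp (-η * φ y) ≤ K * (1 + ∑ i, levi b y (eb i)) := by
  obtain ⟨c, hc, h1⟩ := sloc_cv n (s := 1 / 8) (by norm_num)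
  obtain ⟨w, hw, h2⟩ := sloc_zero n
  obtain ⟨η, K, hη, hK, h3⟩ := sone_main (L := c * (|L| + 1)) (by positivity)
  refine ⟨η * w, 4 * K, mul_pos hη hw, by linarith only [hK], fun φ hφ h hL => ?_⟩
  refine ⟨fun z => ∫ s in Ioc (0 : ℝ) (1 / 8), bm φ z s, sloc_b hφ, fun y hy => ?_⟩
  obtain ⟨d, hd, hd'⟩ := sode_bm hφ y
  have hn : ∀ s : ℝ, 0 ≤ s → s ≤ 1 / 4 → ∀ a ∈ ball (0 : E n) 1, ‖y + s • a‖ ≤ 7 / 2 :=
    fun s h0 hs a ha => sloc_norm hy ha h0 (by linarith)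
  have h4 := sloc_mono hφ (x := y) (x' := 0) (s := 1 / 8) (s' := 3 / 2) (fun z hz => (h z (by
    linarith [mem_ball_zero_iff.1 hz])).1) (by rw [dist_zero_right]; linarith)
  have h5 : -(c * (|L| + 1)) ≤ bm φ y (1 / 8) := by
    rw [h1]
    rw [integral_neg] at h4
    have h6 : -(|L| + 1) ≤ ∫ y in ball y (1 / 8), φ y := by linarith [le_abs_self L]
    have h7 := mul_le_mul_of_nonneg_left h6 hc.le
    linarith
  have h6 : bm φ y (1 / 4) ≤ 0 :=
    setIntegral_nonpos measurableSet_ball fun a ha => (h _ (hn _ (by norm_num) le_rfl a ha)).1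
  obtain ⟨k1, k2⟩ := h3 (bm φ y) d
    (fun s => 4 * ∫ a in ball (0 : E n) 1, levi φ (y + s • a) a) hd hd' (sloc_g hφ y)
    (fun s h0 hs => mul_nonneg (by norm_num)
      (setIntegral_nonneg measurableSet_ball fun a ha => (h _ (hn s h0 hs a ha)).2 a)) h6 h5
  have h7 : ∀ s ∈ Ioc (0 : ℝ) (1 / 8), ∀ a ∈ ball (0 : E n) 1, ∀ v, 0 ≤ levi φ (y + s • a) v :=
    fun s hs a ha => (h _ (hn s hs.1.le (hs.2.trans (by norm_num)) a ha)).2
  have k4 := sloc_out hφ h7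
  refine ⟨k1.trans (by linarith), fun v => ?_, ?_⟩
  · rw [sloc_levi hφ]
    exact setIntegral_nonneg measurableSet_Ioc fun s hs => setIntegral_nonneg measurableSet_ball
      fun a ha => h7 s hs a ha v
  · rw [h2] at k2
    rw [show -(η * w) * φ y = -η * (w * φ y) by ring]
    refine k2.trans ?_
    have k5 := mul_le_mul_of_nonneg_left k4 (by linarith : 0 ≤ K)
    linarith

end Vale.Agent.P272
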