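import Vale.Agent.P272.F.S.Par

/-! P272 F/S/Ode: the radial equation `(s m')' = 4 s ∫ levi φ (z + s a) a` for `m = bm φ z`.

Plan. `d s = ∫ a in ball 0 1, fderiv ℝ φ (z + s • a) a`, and `d' s = ∫ D²φ (z + s • a) a a`
(`spar_deriv` twice). Rotation: for `‖c‖ = 1` the map `a ↦ c • a` is a real linear isometry, so it
preserves `volume` (`LinearIsometryEquiv.measurePreserving`) and the ball: `sode_rot`. Hence
`t ↦ ∫ H (exp (t I) • a)` is constant for `H a = fderiv ℝ φ (z + s • a) (I • a)`; its derivative at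
`t = 0` (`spar_deriv`) gives `s ∫ D²φ (z + s • a) (I • a) (I • a) = d s`. Add the two.
Auxiliary names start with `sode_`. -/

open Metric Set Filter Topology Complex MeasureTheory
open scoped ContDiff

noncomputable section

namespace Vale.Agent.P272

variable {n : ℕ}

theorem sode_rot (H : E n → ℝ) {c : ℂ} (hc : ‖c‖ = 1) :
    ∫ a in ball (0 : E n) 1, H (c • a) = ∫ a in ball (0 : E n) 1, H a := by
  have h0 : c ≠ 0 := norm_ne_zero_iff.1 (by rw [hc]; exact one_ne_zero)
  let e : E n ≃ₗᵢ[ℝ] E n :=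
    { toLinearEquiv := (LinearEquiv.smulOfNeZero ℂ (E n) c h0).restrictScalars ℝ
      norm_map' := fun a => by
        show ‖c • a‖ = ‖a‖
        rw [norm_smul, hc, one_mul] }
  have h1 := e.measurePreserving.setIntegral_preimage_emb
    e.toHomeomorph.measurableEmbedding H (ball 0 1)
  have h2 : e ⁻¹' ball (0 : E n) 1 = ball 0 1 := by
    ext a
    simp only [mem_preimage, mem_ball_zero_iff, e.norm_map]
  rw [h2] at h1
  exact h1

theorem sode_line (z a : E n) (s : ℝ) : HasDerivAt (fun s : ℝ => z + s • a) a s := by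
  simpa using ((hasDerivAt_id s).smul_const a).const_add z

theorem sode_cd (z : E n) : ContDiff ℝ ∞ fun p : ℝ × E n => z + p.1 • p.2 :=
  contDiff_const.add (contDiff_fst.smul contDiff_snd)

theorem sode_ang {φ : E n → ℝ} (hφ : ContDiff ℝ ∞ φ) (z : E n) (s : ℝ) :
    ∫ a in ball (0 : E n) 1, (s * fderiv ℝ (fderiv ℝ φ) (z + s • a) (I • a) (I • a) -
      fderiv ℝ φ (z + s • a) a) = 0 := by
  have h1 : ContDiff ℝ ∞ (fderiv ℝ φ) := hφ.fderiv_right (m := ∞) (by simp)
  have h2 : ContDiff ℝ ∞ fun p : ℝ × E n => exp (p.1 * I) • p.2 :=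
    ((Complex.contDiff_exp (𝕜 := ℝ)).comp
      ((ofRealCLM.contDiff.comp contDiff_fst).mul contDiff_const)).smul contDiff_snd
  have h3 : ContDiff ℝ ∞ fun p : ℝ × E n =>
      fderiv ℝ φ (z + s • exp (p.1 * I) • p.2) (I • exp (p.1 * I) • p.2) :=
    (h1.comp (contDiff_const.add (h2.const_smul s))).clm_apply (h2.const_smul I)
  have h4 := spar_deriv (μ := volume) (G' := fun p : ℝ × E n => deriv (fun t : ℝ =>
      fderiv ℝ φ (z + s • exp (t * I) • p.2) (I • exp (t * I) • p.2)) p.1) h3
    (isBounded_ball (x := (0 : E n)) (r := 1)) measurableSet_ball (fun t w =>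
      (((h3.comp (contDiff_id.prodMk (contDiff_const (c := w)))).differentiable
        (by simp)) t).hasDerivAt) 0
  have h5 : (fun t : ℝ => ∫ a in ball (0 : E n) 1,
      fderiv ℝ φ (z + s • exp (t * I) • a) (I • exp (t * I) • a)) =
      fun _ => ∫ a in ball (0 : E n) 1, fderiv ℝ φ (z + s • a) (I • a) := funext fun t =>
    sode_rot (fun a => fderiv ℝ φ (z + s • a) (I • a)) (norm_exp_ofReal_mul_I t)
  simp only at h4
  rw [h5] at h4
  refine Eq.trans (integral_congr_ae (Eventually.of_forall fun a => ?_))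
    (h4.unique (hasDerivAt_const (0 : ℝ) _))
  have a1 : HasDerivAt (fun t : ℝ => exp (t * I) • a) (I • a) 0 := by
    have b1 : HasDerivAt (fun t : ℝ => (t : ℂ) * I) (1 * I) 0 :=
      (ofRealCLM.hasDerivAt (x := (0 : ℝ))).mul_const I
    simpa using b1.cexp.smul_const a
  have a2 := ((h1.differentiable (by simp) _).hasFDerivAt.comp_hasDerivAt (0 : ℝ)
    ((a1.const_smul s).const_add z)).clm_apply (a1.const_smul I)
  refine Eq.trans ?_ a2.deriv.symm
  simp [smul_smul, sub_eq_add_neg]

theorem sode_bm {φ : E n → ℝ} (hφ : ContDiff ℝ ∞ φ) (z : E n) :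
    ∃ d : ℝ → ℝ, (∀ s, HasDerivAt (bm φ z) (d s) s) ∧ ∀ s, HasDerivAt (fun s => s * d s)
      (s * (4 * ∫ a in ball (0 : E n) 1, levi φ (z + s • a) a)) s := by
  have h1 : ContDiff ℝ ∞ (fderiv ℝ φ) := hφ.fderiv_right (m := ∞) (by simp)
  have h2 : ContDiff ℝ ∞ (fderiv ℝ (fderiv ℝ φ)) := h1.fderiv_right (m := ∞) (by simp)
  have hb := isBounded_ball (x := (0 : E n)) (r := 1)
  refine ⟨fun s => ∫ a in ball (0 : E n) 1, fderiv ℝ φ (z + s • a) a, fun s => ?_, fun s => ?_⟩
  · exact spar_deriv (μ := volume) (G := fun p : ℝ × E n => φ (z + p.1 • p.2))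
      (G' := fun p : ℝ × E n => fderiv ℝ φ (z + p.1 • p.2) p.2) (hφ.comp (sode_cd z)) hb
      measurableSet_ball (fun t w =>
        (hφ.differentiable (by simp) _).hasFDerivAt.comp_hasDerivAt t (sode_line z w t)) s
  · have h3 := spar_deriv (μ := volume) (G := fun p : ℝ × E n => fderiv ℝ φ (z + p.1 • p.2) p.2)
      (G' := fun p : ℝ × E n => fderiv ℝ (fderiv ℝ φ) (z + p.1 • p.2) p.2 p.2)
      ((h1.comp (sode_cd z)).clm_apply contDiff_snd) hb measurableSet_ball (fun t w => by
        have a1 := ((h1.differentiable (by simp) _).hasFDerivAt.comp_hasDerivAt t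
          (sode_line z w t)).clm_apply (hasDerivAt_const t w)
        simpa using a1) s
    have c0 : Continuous fun a : E n => z + s • a := by fun_prop
    have c1 : Continuous fun a : E n => I • a := by fun_prop
    have i1 : IntegrableOn (fun a : E n => fderiv ℝ φ (z + s • a) a) (ball 0 1) :=
      spar_int ((h1.continuous.comp c0).clm_apply continuous_id) hb
    have i2 : IntegrableOn (fun a : E n => fderiv ℝ (fderiv ℝ φ) (z + s • a) a a) (ball 0 1) :=
      spar_int (((h2.continuous.comp c0).clm_apply continuous_id).clm_apply continuous_id) hb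
    have i3 : IntegrableOn (fun a : E n => fderiv ℝ (fderiv ℝ φ) (z + s • a) (I • a) (I • a))
        (ball 0 1) := spar_int (((h2.continuous.comp c0).clm_apply c1).clm_apply c1) hb
    have e1 := sode_ang hφ z s
    rw [integral_sub (i3.const_mul s) i1, integral_const_mul] at e1
    refine ((hasDerivAt_id s).fun_mul h3).congr_deriv ?_
    unfold levi
    rw [integral_div, integral_add i2 i3]
    simp only [id]
    linarith

end Vale.Agent.P272
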